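import Vale.Agent.P329.StarFree

/-!
Automata with a set of events, each event leading to one fixed state.  If the event-free part is
counter-free, then counting the events modulo `N` costs star height one.
-/

namespace Vale.Agent.P329

/-- An automaton with distinguished events, all of which lead to the state `hub`. -/
structure EvAut (α Q : Type) where
  step : Q → α → Q
  ev : Q → α → Bool
  hub : Q
  ev_step : ∀ q a, ev q a = true → step q a = hub

variable {α Q : Type}

namespace EvAut

variable (A : EvAut α Q)

/-- The state reached from `q` by reading `w`. -/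
def run : Q → List α → Q
  | q, [] => q
  | q, a :: w => run (A.step q a) w

/-- The number of events met when reading `w` from `q`. -/
def cnt : Q → List α → ℕ
  | _, [] => 0
  | q, a :: w => (if A.ev q a then 1 else 0) + cnt (A.step q a) w

theorem run_append : ∀ (q : Q) (u v : List α), A.run q (u ++ v) = A.run (A.run q u) v
  | _, [], _ => rfl
  | q, a :: u, v => by simpa [run] using run_append (A.step q a) u v

theorem cnt_append : ∀ (q : Q) (u v : List α),
    A.cnt q (u ++ v) = A.cnt q u + A.cnt (A.run q u) v
  | _, [], _ => by simp [run, cnt]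
  | q, a :: u, v => by simp [run, cnt, cnt_append (A.step q a) u v, add_assoc]

/-- The `k`-fold repetition of a word. -/
def rep (w : List α) : ℕ → List α
  | 0 => []
  | k + 1 => w ++ rep w k

theorem rep_add (w : List α) : ∀ i j : ℕ, rep w (i + j) = rep w i ++ rep w j
  | 0, j => by simp [rep]
  | i + 1, j => by
      have : i + 1 + j = (i + j) + 1 := by omega
      simp [this, rep, rep_add w i j]

/-- No word permutes states in a nontrivial cycle without meeting an event. -/
def CounterFree : Prop :=
  ∀ (w : List α) (x : Q) (k : ℕ), A.cnt x (rep w (k + 1)) = 0 →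
    A.run x (rep w (k + 1)) = x → A.run x w = x

open Classical in
/-- The event-free transition of one letter, `none` being a sink. -/
noncomputable def qstep (a : α) : Option Q → Option Q
  | none => none
  | some q => if A.ev q a then none else some (A.step q a)

open Classical in
/-- The event-free action of a word. -/
noncomputable def qrun (w : List α) : Option Q → Option Q
  | none => none
  | some q => if A.cnt q w = 0 then some (A.run q w) else none

theorem qrun_cons (a : α) (w : List α) (s : Option Q) :
    A.qrun (a :: w) s = A.qrun w (A.qstep a s) := by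
  cases s with
  | none => simp [qrun, qstep]
  | some q => by_cases h : A.ev q a <;> simp [qrun, qstep, cnt, run, h]

theorem qrun_rep (w : List α) : ∀ (k : ℕ) (s : Option Q),
    A.qrun (rep w k) s = (A.qrun w)^[k] s
  | 0, s => by cases s <;> simp [qrun, rep, run, cnt]
  | k + 1, s => by
      rw [Function.iterate_succ_apply, ← qrun_rep w k]
      cases s with
      | none => simp [qrun]
      | some q =>
        by_cases h : A.cnt q w = 0 <;>
          simp [qrun, rep, run_append, cnt_append, h]

/-- The monoid of event-free transitions. -/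
noncomputable def qMon : Submonoid (Function.End (Option Q))ᵐᵒᵖ :=
  Submonoid.closure (Set.range fun a : α => MulOpposite.op (A.qstep a : Function.End (Option Q)))

/-- The generator attached to a letter. -/
noncomputable def qgen (a : α) : A.qMon :=
  ⟨MulOpposite.op (A.qstep a : Function.End (Option Q)), Submonoid.subset_closure ⟨a, rfl⟩⟩

theorem qgen_prod : ∀ (w : List α) (s : Option Q),
    ((w.map A.qgen).prod : A.qMon).1.unop s = A.qrun w s
  | [], s => by cases s <;> simp [qrun, cnt, run] <;> rfl
  | a :: w, s => by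
      rw [qrun_cons, ← qgen_prod w]
      simp only [List.map_cons, List.prod_cons, Submonoid.coe_mul, MulOpposite.unop_mul]
      rfl

theorem exists_word (x : A.qMon) : ∃ w : List α, (w.map A.qgen).prod = x := by
  obtain ⟨l, hl, hprod⟩ := Submonoid.exists_list_of_mem_closure x.2
  suffices H : ∀ l : List (Function.End (Option Q))ᵐᵒᵖ,
      (∀ y ∈ l, y ∈ Set.range fun a : α => MulOpposite.op (A.qstep a : Function.End (Option Q))) →
      ∃ w : List α, ((w.map A.qgen).prod : A.qMon).1 = l.prod by
    obtain ⟨w, hw⟩ := H l hl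
    exact ⟨w, Subtype.ext (hw.trans hprod)⟩
  intro l
  induction l with
  | nil => exact fun _ => ⟨[], rfl⟩
  | cons y l ih =>
    intro h
    obtain ⟨a, ha⟩ := h y (by simp)
    obtain ⟨w, hw⟩ := ih fun z hz => h z (by simp [hz])
    exact ⟨a :: w, by
      simp only [List.map_cons, List.prod_cons, Submonoid.coe_mul, hw, ← ha]
      rfl⟩

theorem qMon_aperiodic [Finite Q] (hA : A.CounterFree) : Aperiodic A.qMon := by
  intro x
  obtain ⟨w, rfl⟩ := A.exists_word x
  refine ⟨Nat.card (Option Q), ?_⟩
  have hiter : ∀ (k : ℕ) (s : Option Q),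
      ((w.map A.qgen).prod ^ k : A.qMon).1.unop s = (A.qrun w)^[k] s := by
    intro k
    induction k with
    | zero => intro s; rfl
    | succ k ih =>
      intro s
      rw [pow_succ, Submonoid.coe_mul, MulOpposite.unop_mul, Function.iterate_succ_apply', ← ih s,
        ← A.qgen_prod w]
      rfl
  apply Subtype.ext
  apply MulOpposite.unop_injective
  funext s
  rw [hiter, hiter]
  set f := A.qrun w with hf
  set N := Nat.card (Option Q) with hN
  have : Fintype Q := Fintype.ofFinite Q
  obtain ⟨i, j, hne, he⟩ := Fintype.exists_ne_map_eq_of_card_lt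
    (fun i : Fin (N + 1) => f^[(i : ℕ)] s) (by simp [hN, Nat.card_eq_fintype_card])
  wlog hij : (i : ℕ) < (j : ℕ) generalizing i j
  · exact this j i hne.symm he.symm (by
      have : (i : ℕ) ≠ (j : ℕ) := fun h => hne (Fin.ext h)
      omega)
  have hy : f (f^[(i : ℕ)] s) = f^[(i : ℕ)] s := by
    obtain ⟨d, hd⟩ : ∃ d : ℕ, (j : ℕ) = (d + 1) + i := ⟨j - i - 1, by omega⟩
    simp only [hd] at he
    rw [Function.iterate_add_apply f (d + 1) (i : ℕ)] at he
    generalize f^[(i : ℕ)] s = y at he ⊢
    cases y with
    | none => simp [hf, qrun]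
    | some q =>
      rw [hf, ← A.qrun_rep w (d + 1)] at he
      simp only [qrun] at he
      split at he
      · next hc =>
        have h2 := hA w q d hc (Option.some.inj he).symm
        have h3 : A.cnt q w = 0 := by
          simp only [rep, cnt_append] at hc
          omega
        simp [hf, qrun, h3, h2]
      · simp at he
  have hfix : ∀ k : ℕ, (i : ℕ) ≤ k → f^[k] s = f^[(i : ℕ)] s := by
    intro k hk
    obtain ⟨d, rfl⟩ := Nat.exists_eq_add_of_le hk
    rw [add_comm, Function.iterate_add_apply, Function.iterate_fixed hy]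
  rw [hfix (N + 1) (by omega), hfix N (by omega)]

variable [Finite α] [Finite Q]

theorem hle_quiet (hA : A.CounterFree) (q y : Q) :
    HLE (lset fun w : List α => A.cnt q w = 0 ∧ A.run q w = y) 0 := by
  have hfin : Finite A.qMon := by
    have : Finite (Function.End (Option Q)) := inferInstanceAs (Finite (Option Q → Option Q))
    exact Finite.of_injective (β := Function.End (Option Q)) (fun m : A.qMon => m.1.unop)
      fun a b h => Subtype.ext (MulOpposite.unop_injective h)
  have h := starFree_of_aperiodic (Nat.card A.qMon) A.qMon le_rfl (A.qMon_aperiodic hA) α A.qgen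
  refine (HLE.exists_fin fun m : {m : A.qMon // m.1.unop (some q) = some y} => h m.1).congr
    fun w => ?_
  constructor
  · rintro ⟨⟨m, hm⟩, rfl⟩
    rw [A.qgen_prod] at hm
    simp only [qrun] at hm
    split at hm
    · next hc => exact ⟨hc, Option.some.inj hm⟩
    · simp at hm
  · rintro ⟨hc, hr⟩
    exact ⟨⟨(w.map A.qgen).prod, by rw [A.qgen_prod]; simp [qrun, hc, hr]⟩, rfl⟩

/-- The words read from `q` with exactly one event, at their last letter. -/
def first (q : Q) : Language α :=
  lset fun w => ∃ (u : List α) (a : α), w = u ++ [a] ∧ A.cnt q u = 0 ∧ A.ev (A.run q u) a = true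

theorem hle_first (hA : A.CounterFree) (q : Q) : HLE (A.first q) 0 := by
  refine (HLE.exists_fin fun i : {i : Q × α // A.ev i.1 i.2 = true} =>
    (((A.hle_quiet hA q i.1.1).mul (HLE.char i.1.2)).congr
      (P := fun w => w ∈ (lset fun w : List α => A.cnt q w = 0 ∧ A.run q w = i.1.1) *
        ({[i.1.2]} : Language α)) fun _ => Iff.rfl)).congr fun w => ?_
  simp only [mem_lset, mem_mul_single]
  constructor
  · rintro ⟨⟨⟨y, a⟩, he⟩, u, ⟨hc, hr⟩, rfl⟩
    exact ⟨u, a, rfl, hc, hr ▸ he⟩
  · rintro ⟨u, a, rfl, hc, he⟩
    exact ⟨⟨(A.run q u, a), he⟩, u, ⟨hc, rfl⟩, rfl⟩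

theorem first_spec {q : Q} {u : List α} (hu : u ∈ A.first q) :
    A.cnt q u = 1 ∧ A.run q u = A.hub := by
  obtain ⟨v, a, rfl, hc, he⟩ := hu
  simp [cnt_append, run_append, hc, cnt, run, he, A.ev_step _ _ he]

theorem cnt_succ_split : ∀ (w : List α) (q : Q) (m : ℕ), A.cnt q w = m + 1 →
    ∃ u v : List α, w = u ++ v ∧ u ∈ A.first q ∧ A.cnt A.hub v = m
  | [], q, m, h => by simp [cnt] at h
  | a :: w, q, m, h => by
      by_cases he : A.ev q a = true
      · simp [cnt, he, A.ev_step _ _ he] at h
        exact ⟨[a], w, rfl, ⟨[], a, rfl, rfl, he⟩, by omega⟩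
      · simp [cnt, he] at h
        obtain ⟨u, v, rfl, ⟨u', b, rfl, hc, hb⟩, hv⟩ := cnt_succ_split w (A.step q a) m h
        exact ⟨a :: (u' ++ [b]), v, by simp, ⟨a :: u', b, rfl, by simp [cnt, he, hc], hb⟩, hv⟩

/-- The event-free words from `q` to `y`. -/
def quiet (q y : Q) : Language α := lset fun w => A.cnt q w = 0 ∧ A.run q w = y

theorem mem_first_pow (y : Q) : ∀ (i : ℕ) (w : List α),
    w ∈ A.first A.hub ^ i * A.quiet A.hub y ↔ A.cnt A.hub w = i ∧ A.run A.hub w = y
  | 0, w => by rw [pow_zero, one_mul]; rfl
  | i + 1, w => by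
      rw [pow_succ', mul_assoc]
      simp only [Language.mem_mul (l := A.first A.hub)]
      constructor
      · rintro ⟨u, hu, v, hv, rfl⟩
        obtain ⟨hc, hr⟩ := A.first_spec hu
        obtain ⟨hc', hr'⟩ := (mem_first_pow y i v).1 hv
        rw [cnt_append, run_append, hr, hc, hc', hr']
        exact ⟨by omega, rfl⟩
      · rintro ⟨hc, hr⟩
        obtain ⟨u, v, rfl, hu, hv⟩ := A.cnt_succ_split w _ i hc
        rw [run_append, (A.first_spec hu).2] at hr
        exact ⟨u, hu, v, (mem_first_pow y i v).2 ⟨hv, hr⟩, rfl⟩

/-- Counting events modulo `N` together with the final state costs star height one. -/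
theorem hle_count (hA : A.CounterFree) (q y : Q) (N : ℕ) [NeZero N] (j : ZMod N) :
    HLE (lset fun w : List α => (A.cnt q w : ZMod N) = j ∧ A.run q w = y) 1 := by
  set K := A.first A.hub
  set i := (j - 1).val
  have hq : HLE (A.quiet A.hub y) 1 := (A.hle_quiet hA A.hub y).mono (by omega)
  have h0 : HLE (lset fun w : List α => (0 : ZMod N) = j ∧ (A.cnt q w = 0 ∧ A.run q w = y)) 1 :=
    (HLE.const ((0 : ZMod N) = j)).and ((A.hle_quiet hA q y).mono (by omega))
  have h1 : HLE (A.first q * (KStar.kstar (K ^ N) * (K ^ i * A.quiet A.hub y))) 1 :=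
    ((A.hle_first hA q).mono (by omega)).mul
      (((A.hle_first hA A.hub).pow N).star.mul
        ((((A.hle_first hA A.hub).mono (by omega)).pow i).mul hq))
  refine (h0.or (h1.congr (P := fun w => w ∈ _) fun _ => Iff.rfl)).congr fun w => ?_
  have hstar : ∀ v : List α, v ∈ KStar.kstar (K ^ N) * (K ^ i * A.quiet A.hub y) ↔
      ∃ l : ℕ, A.cnt A.hub v = N * l + i ∧ A.run A.hub v = y := by
    intro v
    rw [Language.kstar_eq_iSup_pow, Language.iSup_mul]
    simp only [Language.mem_iSup, ← pow_mul, ← mul_assoc, ← pow_add]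
    exact exists_congr fun l => A.mem_first_pow y (N * l + i) v
  simp only [mem_lset, Language.mem_mul (l := A.first q), hstar]
  constructor
  · rintro (⟨hj, hc, hr⟩ | ⟨u, hu, v, ⟨l, hc, hr⟩, rfl⟩)
    · exact ⟨by simp [hc, hj], hr⟩
    · obtain ⟨hc', hr'⟩ := A.first_spec hu
      rw [cnt_append, run_append, hr', hc', hc]
      refine ⟨?_, hr⟩
      simp [i]
  · rintro ⟨hc, hr⟩
    cases hn : A.cnt q w with
    | zero =>
      left
      exact ⟨by simpa [hn] using hc, rfl, hr⟩
    | succ m =>
      right
      obtain ⟨u, v, rfl, hu, hv⟩ := A.cnt_succ_split w q m hn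
      rw [run_append, (A.first_spec hu).2] at hr
      refine ⟨u, hu, v, ⟨m / N, ?_, hr⟩, rfl⟩
      rw [hn] at hc
      have hm : (m : ZMod N) = j - 1 := by rw [← hc]; simp
      rw [hv, show i = m % N by simp [i, ← hm, ZMod.val_natCast], Nat.div_add_mod]

end EvAut

end Vale.Agent.P329
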