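import Mathlib

/-!
Generalized regular expressions (union, concatenation, complement, Kleene star) and their star
height, together with closure properties of the classes of bounded generalized star height.
-/

namespace Vale.Agent.P329

/-- Generalized regular expressions over the alphabet `α`. -/
inductive GRE (α : Type) : Type
  | zero : GRE α
  | one : GRE α
  | char (a : α) : GRE α
  | plus (P Q : GRE α) : GRE α
  | cat (P Q : GRE α) : GRE α
  | neg (P : GRE α) : GRE α
  | star (P : GRE α) : GRE α

variable {α : Type}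

/-- The language denoted by a generalized regular expression. -/
def GRE.lang : GRE α → Language α
  | .zero => 0
  | .one => 1
  | .char a => {[a]}
  | .plus P Q => P.lang + Q.lang
  | .cat P Q => P.lang * Q.lang
  | .neg P => (P.lang)ᶜ
  | .star P => KStar.kstar P.lang

/-- Star height of a generalized regular expression. -/
def GRE.sh : GRE α → ℕ
  | .zero => 0
  | .one => 0
  | .char _ => 0
  | .plus P Q => max P.sh Q.sh
  | .cat P Q => max P.sh Q.sh
  | .neg P => P.sh
  | .star P => P.sh + 1

/-- `L` has generalized star height at most `h`. -/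
def HLE (L : Language α) (h : ℕ) : Prop :=
  ∃ E : GRE α, E.lang = L ∧ E.sh ≤ h

/-- The language of the words with a given property. -/
def lset (P : List α → Prop) : Language α := setOf P

@[simp] theorem mem_lset {P : List α → Prop} {w : List α} : w ∈ lset P ↔ P w := Iff.rfl

theorem mem_single {u w : List α} : w ∈ ({u} : Language α) ↔ w = u := Iff.rfl

theorem mem_compl_iff {L : Language α} {w : List α} : w ∈ Lᶜ ↔ w ∉ L := Iff.rfl

theorem mem_mul_single {L : Language α} {a : α} {w : List α} :
    w ∈ L * ({[a]} : Language α) ↔ ∃ u ∈ L, w = u ++ [a] := by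
  simp only [Language.mem_mul, mem_single]
  constructor
  · rintro ⟨u, hu, b, rfl, rfl⟩
    exact ⟨u, hu, rfl⟩
  · rintro ⟨u, hu, rfl⟩
    exact ⟨u, hu, [a], rfl, rfl⟩

namespace HLE

variable {h : ℕ} {L L' : Language α}

theorem mono {h' : ℕ} (hL : HLE L h) (hh : h ≤ h') : HLE L h' := by
  obtain ⟨E, h1, h2⟩ := hL
  exact ⟨E, h1, h2.trans hh⟩

theorem zero : HLE (0 : Language α) h := ⟨.zero, rfl, Nat.zero_le _⟩

theorem one : HLE (1 : Language α) h := ⟨.one, rfl, Nat.zero_le _⟩

theorem char (a : α) : HLE ({[a]} : Language α) h := ⟨.char a, rfl, Nat.zero_le _⟩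

theorem add (h1 : HLE L h) (h2 : HLE L' h) : HLE (L + L') h := by
  obtain ⟨E, rfl, hE⟩ := h1
  obtain ⟨E', rfl, hE'⟩ := h2
  exact ⟨.plus E E', rfl, max_le hE hE'⟩

theorem mul (h1 : HLE L h) (h2 : HLE L' h) : HLE (L * L') h := by
  obtain ⟨E, rfl, hE⟩ := h1
  obtain ⟨E', rfl, hE'⟩ := h2
  exact ⟨.cat E E', rfl, max_le hE hE'⟩

theorem compl (h1 : HLE L h) : HLE Lᶜ h := by
  obtain ⟨E, rfl, hE⟩ := h1
  exact ⟨.neg E, rfl, hE⟩

theorem star (h1 : HLE L h) : HLE (KStar.kstar L) (h + 1) := by
  obtain ⟨E, rfl, hE⟩ := h1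
  exact ⟨.star E, rfl, Nat.succ_le_succ hE⟩

theorem pow (h1 : HLE L h) : ∀ n : ℕ, HLE (L ^ n) h
  | 0 => by rw [pow_zero]; exact one
  | n + 1 => by rw [pow_succ]; exact (pow h1 n).mul h1

theorem congr {P : List α → Prop} (h1 : HLE L h) (hP : ∀ w, w ∈ L ↔ P w) : HLE (lset P) h := by
  have : L = lset P := Language.ext hP
  rw [← this]; exact h1

theorem const (P : Prop) : HLE (lset fun _ : List α => P) h := by
  by_cases hP : P
  · exact (zero (α := α) (h := h)).compl.congr fun w => by simp [mem_compl_iff, hP]
  · exact (zero (α := α) (h := h)).congr fun w => by simp [hP]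

theorem or {P Q : List α → Prop} (h1 : HLE (lset P) h) (h2 : HLE (lset Q) h) :
    HLE (lset fun w => P w ∨ Q w) h :=
  (h1.add h2).congr fun w => by simp [Language.mem_add]

theorem not {P : List α → Prop} (h1 : HLE (lset P) h) : HLE (lset fun w => ¬ P w) h :=
  h1.compl.congr fun w => by simp [mem_compl_iff]

theorem and {P Q : List α → Prop} (h1 : HLE (lset P) h) (h2 : HLE (lset Q) h) :
    HLE (lset fun w => P w ∧ Q w) h :=
  (h1.not.or h2.not).not.congr fun w => by simp

theorem exists_fin {ι : Type} [Finite ι] {P : ι → List α → Prop}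
    (hP : ∀ i, HLE (lset (P i)) h) : HLE (lset fun w => ∃ i, P i w) h := by
  classical
  have : Fintype ι := Fintype.ofFinite ι
  suffices H : ∀ s : Finset ι, HLE (lset fun w => ∃ i ∈ s, P i w) h by
    exact (H Finset.univ).congr fun w => by simp
  intro s
  induction s using Finset.induction_on with
  | empty => exact (zero (α := α) (h := h)).congr fun w => by simp
  | @insert i s _ ih => exact ((hP i).or ih).congr fun w => by simp

theorem forall_fin {ι : Type} [Finite ι] {P : ι → List α → Prop}
    (hP : ∀ i, HLE (lset (P i)) h) : HLE (lset fun w => ∀ i, P i w) h :=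
  (exists_fin fun i => (hP i).not).not.congr fun w => by simp

theorem letters [Finite α] (p : α → Prop) :
    HLE (lset fun w : List α => ∀ a ∈ w, p a) h := by
  have h1 : ∀ i : {a : α // ¬ p a}, HLE (lset fun w => i.1 ∈ w) h := by
    intro i
    have t : HLE (lset fun _ : List α => True) h := const True
    refine ((t.mul (char i.1)).mul t).congr fun w => ?_
    simp only [Language.mem_mul, mem_single, mem_lset, true_and]
    constructor
    · rintro ⟨u, ⟨x, y, rfl, rfl⟩, z, rfl⟩
      simp
    · intro hw
      obtain ⟨x, z, rfl⟩ := List.append_of_mem hw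
      exact ⟨x ++ [i.1], ⟨x, [i.1], rfl, rfl⟩, z, by simp⟩
  exact (exists_fin h1).not.congr fun w => by
    simp only [mem_lset, Subtype.exists, exists_prop, not_exists, not_and]
    constructor
    · intro H a ha
      by_contra hp
      exact H a hp ha
    · intro H a hp ha
      exact hp (H a ha)

end HLE

end Vale.Agent.P329
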