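import Vale.Agent.P329.Automaton

/-!
Integer-valued functions on words all of whose residues modulo every `N` define languages of
generalized star height at most one.  This class is closed under linear combinations and under
exact division.
-/

namespace Vale.Agent.P329

variable {α : Type}

/-- Every congruence class of `F` is a language of generalized star height at most one. -/
def H1 (F : List α → ℤ) : Prop :=
  ∀ (N : ℕ) [NeZero N] (j : ZMod N), HLE (lset fun w => (F w : ZMod N) = j) 1

namespace H1

variable {F G : List α → ℤ}

theorem congr (hF : H1 F) (h : ∀ w, F w = G w) : H1 G := by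
  have : F = G := funext h
  exact this ▸ hF

theorem const (c : ℤ) : H1 (fun _ : List α => c) := fun N _ j => HLE.const ((c : ZMod N) = j)

theorem add (hF : H1 F) (hG : H1 G) : H1 (fun w => F w + G w) := by
  intro N _ j
  refine (HLE.exists_fin fun i : ZMod N => (hF N i).and (hG N (j - i))).congr fun w => ?_
  simp only [mem_lset, Int.cast_add]
  constructor
  · rintro ⟨i, h1, h2⟩
    rw [h1, h2, add_sub_cancel]
  · intro h
    exact ⟨_, rfl, by rw [← h]; ring⟩

theorem const_mul (hF : H1 F) (c : ℤ) : H1 (fun w => c * F w) := by
  intro N _ j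
  refine (HLE.exists_fin fun i : {i : ZMod N // (c : ZMod N) * i = j} => hF N i.1).congr fun w => ?_
  simp only [mem_lset, Int.cast_mul]
  constructor
  · rintro ⟨⟨i, hi⟩, h⟩
    rw [h, hi]
  · exact fun h => ⟨⟨_, h⟩, rfl⟩

theorem sub (hF : H1 F) (hG : H1 G) : H1 (fun w => F w - G w) :=
  (hF.add (hG.const_mul (-1))).congr fun w => by ring

theorem sum {ι : Type} (s : Finset ι) {f : ι → List α → ℤ} (hf : ∀ i ∈ s, H1 (f i)) :
    H1 (fun w => ∑ i ∈ s, f i w) := by
  classical
  induction s using Finset.induction_on with
  | empty => exact (const 0).congr fun w => by simp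
  | @insert i s hi ih =>
    exact ((hf i (by simp)).add (ih fun k hk => hf k (by simp [hk]))).congr fun w => by simp [hi]

theorem indicator {P : List α → Prop} [DecidablePred P] (hP : HLE (lset P) 1) :
    H1 (fun w => if P w then 1 else 0) := by
  intro N _ j
  refine ((hP.and (HLE.const ((1 : ZMod N) = j))).or
    (hP.not.and (HLE.const ((0 : ZMod N) = j)))).congr fun w => ?_
  by_cases h : P w <;> simp [h]

theorem div (d : ℕ) [NeZero d] (hF : H1 (fun w => (d : ℤ) * F w)) : H1 F := by
  intro N _ j
  obtain ⟨i, rfl⟩ : ∃ i : ℤ, (i : ZMod N) = j := ⟨j.val, by simp⟩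
  refine (hF (d * N) (((d : ℤ) * i : ℤ) : ZMod (d * N))).congr fun w => ?_
  simp only [mem_lset, ZMod.intCast_eq_intCast_iff_dvd_sub, Nat.cast_mul, ← mul_sub]
  exact mul_dvd_mul_iff_left (by exact_mod_cast NeZero.ne d)

end H1

namespace EvAut

variable {Q : Type} [Finite α] [Finite Q] (A : EvAut α Q)

theorem h1_cnt (hA : A.CounterFree) (q : Q) : H1 (fun w => (A.cnt q w : ℤ)) := by
  intro N _ j
  exact (HLE.exists_fin fun y => A.hle_count hA q y N j).congr fun w => by simp

theorem hle_run (hA : A.CounterFree) (q y : Q) : HLE (lset fun w => A.run q w = y) 1 :=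
  (A.hle_count hA q y 1 0).congr fun w => by
    simp only [mem_lset, Subsingleton.elim _ (0 : ZMod 1), true_and]

end EvAut

open Classical in
/-- The automaton without memory whose events are the occurrences of `b`. -/
noncomputable def letterAut (b : α) : EvAut α Unit where
  step _ _ := ()
  ev _ a := decide (a = b)
  hub := ()
  ev_step _ _ _ := rfl

theorem letterAut_cnt [DecidableEq α] (b : α) :
    ∀ w : List α, (letterAut b).cnt () w = w.count b
  | [] => rfl
  | a :: w => by
      simp only [EvAut.cnt, List.count_cons, letterAut_cnt b w]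
      by_cases h : a = b <;> simp [letterAut, h, add_comm]

theorem h1_count [Finite α] [DecidableEq α] (b : α) : H1 (fun w : List α => (w.count b : ℤ)) :=
  ((letterAut b).h1_cnt (fun _ _ _ _ _ => rfl) ()).congr fun w => by rw [letterAut_cnt]

end Vale.Agent.P329
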