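import Vale.Agent.P329.Signed

/-!
All sums of polynomials of degree at most three in the prefix letter counts, over the occurrences
of a letter, have residue classes of generalized star height at most one.
-/

namespace Vale.Agent.P329

open Classical

variable {α : Type} [Finite α]

/-- Weight one on `a`, minus one on `c`. -/
noncomputable def pm (a c : α) : α → ℤ := fun x => if x = a then 1 else if x = c then -1 else 0

theorem abs_pm_le (a c x : α) : |pm a c x| ≤ 1 := by
  unfold pm; split_ifs <;> simp

theorem lin_pm [Fintype α] {a c : α} (h : a ≠ c) (v : α → ℕ) :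
    lin (pm a c) v = (v a : ℤ) - v c := by
  have e : ∀ x, pm a c x * (v x : ℤ) =
      (if x = a then (v x : ℤ) else 0) - (if x = c then (v x : ℤ) else 0) := by
    intro x
    unfold pm
    by_cases h1 : x = a
    · simp [h1, h]
    · by_cases h2 : x = c <;> simp [h1, h2, Ne.symm h]
  simp [lin, e, Finset.sum_sub_distrib]

omit [Finite α] in
theorem Good.sub {b : α} {F G : (α → ℕ) → ℤ} (hF : Good b F) (hG : Good b G) :
    Good b (fun v => F v - G v) :=
  (hF.add (hG.const_mul (-1))).congr fun v => by ring

omit [Finite α] in
theorem posSum_tele {a b c : α} (hab : a ≠ b) (hcb : c ≠ b) (hac : a ≠ c) :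
    ∀ (l : List α) (v : α → ℕ),
    posSum a (fun v => (v c : ℤ) * v b * v b) v l + posSum c (fun v => (v a : ℤ) * v b * v b) v l +
        (2 * posSum b (fun v => (v a : ℤ) * v c * v b) v l +
          posSum b (fun v => (v a : ℤ) * v c) v l) =
      (v a + l.count a : ℤ) * (v c + l.count c : ℤ) * (v b + l.count b : ℤ) ^ 2 -
        (v a : ℤ) * v c * (v b : ℤ) ^ 2
  | [], v => by simp [posSum]
  | x :: l, v => by
      have ih := posSum_tele hab hcb hac l (v + Pi.single x 1)
      simp only [posSum, List.count_cons]
      by_cases h1 : x = a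
      · subst h1
        simp [hab, hac, Ne.symm hab, Ne.symm hac] at ih ⊢
        linear_combination ih
      · by_cases h2 : x = b
        · subst h2
          simp [hab, hcb, Ne.symm hab, Ne.symm hcb] at ih ⊢
          linear_combination ih
        · by_cases h3 : x = c
          · subst h3
            simp [hcb, hac, Ne.symm hcb, Ne.symm hac] at ih ⊢
            linear_combination ih
          · simp [h1, h2, h3, Ne.symm h1, Ne.symm h2, Ne.symm h3] at ih ⊢
            linear_combination ih

omit [Finite α] in
theorem posSum_self_cube (b : α) : ∀ (l : List α) (v : α → ℕ),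
    4 * posSum b (fun v => (v b : ℤ) * v b * v b) v l =
      ((v b + l.count b : ℤ) ^ 2 * ((v b + l.count b : ℤ) - 1) ^ 2) -
        (v b : ℤ) ^ 2 * ((v b : ℤ) - 1) ^ 2
  | [], v => by simp [posSum]
  | x :: l, v => by
      simp only [posSum, mul_add, posSum_self_cube b l, List.count_cons]
      by_cases hx : x = b
      · subst hx; simp; ring
      · simp [hx, Ne.symm hx]

omit [Finite α] in
theorem posSum_mixed3 {a b : α} (hab : a ≠ b) : ∀ (l : List α) (v : α → ℕ),
    posSum a (fun v => (v b : ℤ) * v b * v b) v l +
      (3 * posSum b (fun v => (v a : ℤ) * v b * v b) v l +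
        (3 * posSum b (fun v => (v a : ℤ) * v b) v l + posSum b (fun v => (v a : ℤ)) v l)) =
      (v a + l.count a : ℤ) * (v b + l.count b : ℤ) ^ 3 - (v a : ℤ) * (v b : ℤ) ^ 3
  | [], v => by simp [posSum]
  | x :: l, v => by
      have ih := posSum_mixed3 hab l (v + Pi.single x 1)
      simp only [posSum, List.count_cons]
      by_cases hx : x = a
      · subst hx
        simp [hab, Ne.symm hab] at ih ⊢
        linear_combination ih
      · by_cases hy : x = b
        · subst hy
          simp [hx, Ne.symm hx] at ih ⊢
          linear_combination ih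
        · simp [hx, hy, Ne.symm hx, Ne.symm hy] at ih ⊢
          linear_combination ih

theorem good_cube {a b : α} (h : a ≠ b) : Good b (fun v => (v a : ℤ) * v a * v a) :=
  (good_wt_pow {a} (b := b) (by simpa using Ne.symm h) 3).congr fun v => by simp [wt]; ring

theorem good_sq_other {a c b : α} (ha : a ≠ b) (hc : c ≠ b) :
    Good b (fun v => (v a : ℤ) * v a * v c) := by
  by_cases h : a = c
  · subst h; exact good_cube ha
  have : Fintype α := Fintype.ofFinite α
  refine Good.of_mul 6 ?_
  refine ((((good_wt_pow {a, c} (b := b) (by simp [Ne.symm ha, Ne.symm hc]) 3).sub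
    (good_lin_pow (wi := pm a c) (b := b) (abs_pm_le a c)
      (by simp [pm, Ne.symm ha, Ne.symm hc]) 3)).sub
    ((good_cube hc).const_mul 2))).congr fun v => ?_
  simp [wt, Finset.sum_pair h, lin_pm h]
  ring

theorem good_three {a c e b : α} (hac : a ≠ c) (hae : a ≠ e) (hce : c ≠ e) (ha : a ≠ b)
    (hc : c ≠ b) (he : e ≠ b) : Good b (fun v => (v a : ℤ) * v c * v e) := by
  refine Good.of_mul 6 ?_
  refine (((((good_wt_pow {a, c, e} (b := b)
      (by simp [Ne.symm ha, Ne.symm hc, Ne.symm he]) 3).sub
    (good_wt_pow {a, c} (b := b) (by simp [Ne.symm ha, Ne.symm hc]) 3)).sub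
    (good_wt_pow {a, e} (b := b) (by simp [Ne.symm ha, Ne.symm he]) 3)).sub
    (good_wt_pow {c, e} (b := b) (by simp [Ne.symm hc, Ne.symm he]) 3)).add
    (((good_cube ha).add (good_cube hc)).add (good_cube he))).congr fun v => ?_
  simp [wt, Finset.sum_pair hac, Finset.sum_pair hae, Finset.sum_pair hce, hac, hae, hce]
  ring

theorem good_others {a c e b : α} (ha : a ≠ b) (hc : c ≠ b) (he : e ≠ b) :
    Good b (fun v => (v a : ℤ) * v c * v e) := by
  by_cases h1 : a = c
  · subst h1; exact good_sq_other ha he
  by_cases h2 : a = e
  · subst h2; exact (good_sq_other ha hc).congr fun v => by ring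
  by_cases h3 : c = e
  · subst h3; exact (good_sq_other hc ha).congr fun v => by ring
  exact good_three h1 h2 h3 ha hc he

theorem good_self_cube (b : α) : Good b (fun v => (v b : ℤ) * v b * v b) := by
  refine H1.div 4 ?_
  have hB : H1 (fun l : List α => (l.count b : ℤ) * ((l.count b : ℤ) - 1)) :=
    (h1_count b).mul ((h1_count b).sub (H1.const 1))
  exact (hB.mul hB).congr fun l => by
    have := posSum_self_cube b l 0
    simp only [Pi.zero_apply, Nat.cast_zero, Nat.cast_ofNat] at this ⊢
    linear_combination -this

theorem good_self_two {a b : α} (h : a ≠ b) : Good b (fun v => (v a : ℤ) * v b * v b) := by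
  refine H1.div 3 ?_
  exact ((((h1_count a).mul ((h1_count b).mul ((h1_count b).mul (h1_count b)))).sub
    (good_cube (Ne.symm h))).sub
    ((H1.const_mul (good_cross h) 3).add (good_lin a b))).congr fun l => by
      have := posSum_mixed3 h l 0
      simp only [Pi.zero_apply, Nat.cast_zero, Nat.cast_ofNat] at this ⊢
      linear_combination -this

theorem good_self_one {a c b : α} (ha : a ≠ b) (hc : c ≠ b) :
    Good b (fun v => (v a : ℤ) * v c * v b) := by
  by_cases h : a = c
  · subst h
    have : Fintype α := Fintype.ofFinite α
    refine Good.of_mul 3 ?_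
    refine ((((good_cube ha).add ((good_self_two ha).const_mul 3)).sub (good_self_cube b)).sub
      (h1_down_sum (wi := pm a b) ha (by simp [pm]) (by simp [pm, Ne.symm ha])
        (fun x h1 h2 => by simp [pm, h1, h2]) 3)).congr fun v => ?_
    simp [lin_pm ha]
    ring
  · refine H1.div 2 ?_
    exact ((((h1_count a).mul ((h1_count c).mul ((h1_count b).mul (h1_count b)))).sub
      (good_others (a := c) (c := b) (e := b) (Ne.symm h) (Ne.symm ha) (Ne.symm ha))).sub
      (good_others (a := a) (c := b) (e := b) h (Ne.symm hc) (Ne.symm hc))).sub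
      (good_quad a c b) |>.congr fun l => by
        have := posSum_tele ha hc h l 0
        simp only [Pi.zero_apply, Nat.cast_zero, Nat.cast_ofNat] at this ⊢
        linear_combination -this

theorem good_cubic (a c e b : α) : Good b (fun v => (v a : ℤ) * v c * v e) := by
  by_cases ha : a = b <;> by_cases hc : c = b <;> by_cases he : e = b
  · subst ha; subst hc; subst he; exact good_self_cube _
  · subst ha; subst hc; exact (good_self_two he).congr fun v => by ring
  · subst ha; subst he; exact (good_self_two hc).congr fun v => by ring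
  · subst ha; exact (good_self_one hc he).congr fun v => by ring
  · subst hc; subst he; exact good_self_two ha
  · subst hc; exact (good_self_one ha he).congr fun v => by ring
  · subst he; exact good_self_one ha hc
  · exact good_others ha hc he

theorem good_choose_mul (a c b : α) :
    Good b (fun v => ((v a).choose 2 : ℕ) * (v c : ℤ)) :=
  Good.of_mul 2 (((good_cubic a a c b).sub (good_quad a c b)).congr fun v => by
    push_cast
    rw [← mul_assoc, two_mul_choose_two]
    ring)

theorem six_mul_choose_three : ∀ n : ℕ,
    (6 : ℤ) * (n.choose 3 : ℕ) = (n : ℤ) * n * n - 3 * ((n : ℤ) * n) + 2 * n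
  | 0 => by simp
  | n + 1 => by
      rw [Nat.choose_succ_succ']
      push_cast
      linear_combination six_mul_choose_three n + 3 * two_mul_choose_two n

theorem good_choose3 (a b : α) : Good b (fun v => ((v a).choose 3 : ℕ)) :=
  Good.of_mul 6 ((((good_cubic a a a b).sub ((good_quad a a b).const_mul 3)).add
    ((good_lin a b).const_mul 2)).congr fun v => by
      push_cast
      rw [six_mul_choose_three])

end Vale.Agent.P329
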