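import Vale.Agent.P329.Nilpotent

/-!
Generalized star height under extensions with abelian kernel: one more star suffices.  Hence
bounds for nilpotent groups logarithmic in the class and for solvable groups by the derived length.
-/

namespace Vale.Agent.P329

variable {α Q : Type} {h : ℕ}

/-- The final state of an automaton costs star height at most `h`. -/
def EvAut.RunHLE (A : EvAut α Q) (h : ℕ) : Prop :=
  ∀ q y, HLE (lset fun w : List α => A.run q w = y) h

namespace EvAut

variable (A : EvAut α Q)

theorem cnt_ne_zero_iff : ∀ (w : List α) (q : Q), A.cnt q w ≠ 0 ↔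
    ∃ u a v, w = u ++ a :: v ∧ A.ev (A.run q u) a = true
  | [], q => by simp [cnt]
  | b :: w, q => by
      by_cases hb : A.ev q b = true
      · simp only [cnt, hb, if_true]
        exact iff_of_true (by omega) ⟨[], b, w, rfl, hb⟩
      · simp only [cnt, hb, Bool.false_eq_true, if_false, zero_add, cnt_ne_zero_iff w]
        constructor
        · rintro ⟨u, a, v, rfl, he⟩
          exact ⟨b :: u, a, v, rfl, he⟩
        · rintro ⟨u, a, v, hw, he⟩
          cases u with
          | nil => simp only [List.nil_append, List.cons.injEq] at hw; exact absurd (hw.1 ▸ he) hb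
          | cons c u =>
            simp only [List.cons_append, List.cons.injEq] at hw
            obtain ⟨rfl, rfl⟩ := hw
            exact ⟨u, a, v, rfl, he⟩

variable [Finite α] [Finite Q]

theorem hle_quiet_of_run (hA : A.RunHLE h) (q y : Q) :
    HLE (lset fun w : List α => A.cnt q w = 0 ∧ A.run q w = y) h := by
  have he : HLE (lset fun w : List α => A.cnt q w ≠ 0) h := by
    have t : HLE (lset fun _ : List α => True) h := HLE.const True
    refine (HLE.exists_fin fun i : {i : Q × α // A.ev i.1 i.2 = true} =>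
      (((hA q i.1.1).mul (HLE.char i.1.2)).mul t).congr
        (P := fun w => w ∈ (lset fun w : List α => A.run q w = i.1.1) *
          ({[i.1.2]} : Language α) * lset fun _ : List α => True) fun _ => Iff.rfl).congr
      fun w => ?_
    simp only [mem_lset, A.cnt_ne_zero_iff, Language.mem_mul, mem_single, true_and]
    constructor
    · rintro ⟨⟨⟨y, a⟩, he⟩, _, ⟨u, hu, _, rfl, rfl⟩, v, rfl⟩
      exact ⟨u, a, v, by simp, hu ▸ he⟩
    · rintro ⟨u, a, v, rfl, he⟩
      exact ⟨⟨(A.run q u, a), he⟩, u ++ [a], ⟨u, rfl, [a], rfl, rfl⟩, v, by simp⟩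
  exact (he.not.and (hA q y)).congr fun w => by simp

theorem hle_first_of_run (hA : A.RunHLE h) (q : Q) : HLE (A.first q) h := by
  refine (HLE.exists_fin fun i : {i : Q × α // A.ev i.1 i.2 = true} =>
    (((A.hle_quiet_of_run hA q i.1.1).mul (HLE.char i.1.2)).congr
      (P := fun w => w ∈ (lset fun w : List α => A.cnt q w = 0 ∧ A.run q w = i.1.1) *
        ({[i.1.2]} : Language α)) fun _ => Iff.rfl)).congr fun w => ?_
  simp only [mem_lset, mem_mul_single]
  constructor
  · rintro ⟨⟨⟨y, a⟩, he⟩, u, ⟨hc, hr⟩, rfl⟩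
    exact ⟨u, a, rfl, hc, hr ▸ he⟩
  · rintro ⟨u, a, rfl, hc, he⟩
    exact ⟨⟨(A.run q u, a), he⟩, u, ⟨hc, rfl⟩, rfl⟩

/-- Counting events costs one star more than the final state. -/
theorem hle_count_of_run (hA : A.RunHLE h) (q y : Q) (N : ℕ) [NeZero N] (j : ZMod N) :
    HLE (lset fun w : List α => (A.cnt q w : ZMod N) = j ∧ A.run q w = y) (h + 1) := by
  set K := A.first A.hub
  set i := (j - 1).val
  have hq : HLE (A.quiet A.hub y) (h + 1) := (A.hle_quiet_of_run hA A.hub y).mono (by omega)
  have h0 : HLE (lset fun w : List α => (0 : ZMod N) = j ∧ (A.cnt q w = 0 ∧ A.run q w = y))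
      (h + 1) :=
    (HLE.const ((0 : ZMod N) = j)).and ((A.hle_quiet_of_run hA q y).mono (by omega))
  have h1 : HLE (A.first q * (KStar.kstar (K ^ N) * (K ^ i * A.quiet A.hub y))) (h + 1) :=
    ((A.hle_first_of_run hA q).mono (by omega)).mul
      (((A.hle_first_of_run hA A.hub).pow N).star.mul
        ((((A.hle_first_of_run hA A.hub).mono (by omega)).pow i).mul hq))
  refine (h0.or (h1.congr (P := fun w => w ∈ _) fun _ => Iff.rfl)).congr fun w => ?_
  have hstar : ∀ v : List α, v ∈ KStar.kstar (K ^ N) * (K ^ i * A.quiet A.hub y) ↔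
      ∃ l : ℕ, A.cnt A.hub v = N * l + i ∧ A.run A.hub v = y := by
    intro v
    rw [Language.kstar_eq_iSup_pow, Language.iSup_mul]
    simp only [Language.mem_iSup, ← pow_mul, ← mul_assoc, ← pow_add]
    exact exists_congr fun l => A.mem_first_pow y (N * l + i) v
  simp only [mem_lset, Language.mem_mul (l := A.first q), hstar]
  constructor
  · rintro (⟨hj, hc, hr⟩ | ⟨u, hu, v, ⟨l, hc, hr⟩, rfl⟩)
    · exact ⟨by simp [hc, hj], hr⟩
    · obtain ⟨hc', hr'⟩ := A.first_spec hu
      rw [cnt_append, run_append, hr', hc', hc]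
      refine ⟨?_, hr⟩
      simp [i]
  · rintro ⟨hc, hr⟩
    cases hn : A.cnt q w with
    | zero =>
      left
      exact ⟨by simpa [hn] using hc, rfl, hr⟩
    | succ m =>
      right
      obtain ⟨u, v, rfl, hu, hv⟩ := A.cnt_succ_split w q m hn
      rw [run_append, (A.first_spec hu).2] at hr
      refine ⟨u, hu, v, ⟨m / N, ?_, hr⟩, rfl⟩
      rw [hn] at hc
      have hm : (m : ZMod N) = j - 1 := by rw [← hc]; simp
      rw [hv, show i = m % N by simp [i, ← hm, ZMod.val_natCast], Nat.div_add_mod]

end EvAut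

section extension

variable [Group Q]

open Classical in
/-- The automaton of prefix values, its events being the occurrences of `b` at the value `r`. -/
noncomputable def posAut (π : α → Q) (r : Q) (b : α) : EvAut α Q where
  step q a := q * π a
  ev q a := decide (q = r ∧ a = b)
  hub := r * π b
  ev_step q a e := by
    simp only [decide_eq_true_eq] at e
    rw [e.1, e.2]

theorem posAut_run (π : α → Q) (r : Q) (b : α) : ∀ (w : List α) (q : Q),
    (posAut π r b).run q w = q * (w.map π).prod
  | [], q => by simp [EvAut.run]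
  | a :: w, q => by
      rw [EvAut.run, posAut_run π r b w]
      simp [posAut, mul_assoc]

variable {M : Type} [CommGroup M]

/-- The product of the cocycle `c` along the path starting at `v`. -/
def groupPathProd (π : α → Q) (c : Q → α → M) : Q → List α → M
  | _, [] => 1
  | v, x :: l => c v x * groupPathProd π c (v * π x) l

theorem groupPathProd_eq [Fintype α] [Fintype Q] (π : α → Q) (c : Q → α → M) :
    ∀ (l : List α) (v : Q),
      groupPathProd π c v l = ∏ i : Q × α, c i.1 i.2 ^ (posAut π i.1 i.2).cnt v l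
  | [], v => by simp [groupPathProd, EvAut.cnt]
  | x :: l, v => by
      simp only [groupPathProd, EvAut.cnt, pow_add, Finset.prod_mul_distrib]
      congr 1
      · rw [Finset.prod_eq_single (v, x)]
        · simp [posAut]
        · rintro ⟨u, a⟩ _ hne
          rw [if_neg, pow_zero]
          simp only [posAut, decide_eq_true_eq]
          rintro ⟨h1, h2⟩
          exact hne (Prod.ext h1.symm h2.symm)
        · simp
      · rw [groupPathProd_eq π c l (v * π x)]
        rfl

end extension

/-- An abelian normal subgroup costs one star. -/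
theorem hle_extension [Finite α] {G : Type} [Group G] [Finite G] (N : Subgroup G) [N.Normal]
    (hN : ∀ a ∈ N, ∀ b ∈ N, a * b = b * a) (f : α → G)
    (hQ : ∀ T : Set (G ⧸ N), HLE (lset fun w : List α =>
      (w.map fun a => (f a : G ⧸ N)).prod ∈ T) h)
    (S : Set G) : HLE (lset fun w => (w.map f).prod ∈ S) (h + 1) := by
  have : Fintype α := Fintype.ofFinite α
  have : Fintype (G ⧸ N) := Fintype.ofFinite _
  let : CommGroup N :=
    { (inferInstance : Group N) with mul_comm := fun a b => Subtype.ext (hN a a.2 b b.2) }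
  let π : α → G ⧸ N := fun a => (f a : G ⧸ N)
  let s : G ⧸ N → G := fun v => v.out
  have hs : ∀ v, (QuotientGroup.mk (s v) : G ⧸ N) = v := fun v => QuotientGroup.out_eq' _
  have hc : ∀ v a, s v * f a * (s (v * π a))⁻¹ ∈ N := fun v a => by
    rw [← QuotientGroup.eq_one_iff, QuotientGroup.mk_mul, QuotientGroup.mk_mul,
      QuotientGroup.mk_inv, hs, hs]
    simp [π]
  let c : G ⧸ N → α → N := fun v a => ⟨_, hc v a⟩
  have hprod : ∀ (l : List α) (v : G ⧸ N),
      s v * (l.map f).prod = ((groupPathProd π c v l : N) : G) * s (v * (l.map π).prod) := by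
    intro l
    induction l with
    | nil => simp [groupPathProd]
    | cons x l ih =>
      intro v
      simp only [List.map_cons, List.prod_cons, groupPathProd, Subgroup.coe_mul]
      rw [← mul_assoc v, mul_assoc (c v x : G), ← ih]
      simp [c, mul_assoc]
  have : NeZero (Nat.card N) := ⟨Nat.card_pos.ne'⟩
  let Φ : (((G ⧸ N) × α → ZMod (Nat.card N)) × (G ⧸ N)) → G := fun t =>
    (s 1)⁻¹ * ((∏ i : (G ⧸ N) × α, c i.1 i.2 ^ (t.1 i).val : N) : G) * s t.2
  have hkey : ∀ l : List α, (l.map f).prod = Φ (fun i =>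
      ((posAut π i.1 i.2).cnt 1 l : ZMod (Nat.card N)), (l.map π).prod) := by
    intro l
    have h1 := hprod l 1
    rw [groupPathProd_eq, one_mul] at h1
    simp only [Φ, ZMod.val_natCast, pow_mod_natCard, mul_assoc, ← h1, inv_mul_cancel_left]
  have hrun : ∀ (i : (G ⧸ N) × α), (posAut π i.1 i.2).RunHLE h := fun i q y =>
    (hQ {q⁻¹ * y}).congr fun w => by
      simp only [mem_lset, Set.mem_singleton_iff, posAut_run]
      exact eq_inv_mul_iff_mul_eq
  refine (HLE.exists_fin fun t : {t // Φ t ∈ S} =>
    (HLE.forall_fin fun i : (G ⧸ N) × α =>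
      (HLE.exists_fin fun y => (posAut π i.1 i.2).hle_count_of_run (hrun i) 1 y _ (t.1.1 i))).and
      ((hQ {t.1.2}).mono (Nat.le_succ h))).congr fun l => ?_
  simp only [mem_lset, Set.mem_singleton_iff, hkey l, exists_and_left, exists_eq', and_true]
  constructor
  · rintro ⟨⟨⟨t1, t2⟩, ht⟩, h1, h2⟩
    rw [funext h1, h2]
    exact ht
  · exact fun hh => ⟨⟨_, hh⟩, fun i => rfl, rfl⟩

theorem commutator_le_of_rotate {G : Type} [Group G] {A B C N : Subgroup G} [N.Normal]
    (h1 : ⁅⁅B, C⁆, A⁆ ≤ N) (h2 : ⁅⁅C, A⁆, B⁆ ≤ N) : ⁅⁅A, B⁆, C⁆ ≤ N := by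
  have e : ∀ X : Subgroup G, X ≤ N ↔ X.map (QuotientGroup.mk' N) = ⊥ := fun X => by
    rw [Subgroup.map_eq_bot_iff, QuotientGroup.ker_mk']
  rw [e, Subgroup.map_commutator, Subgroup.map_commutator] at h1 h2 ⊢
  exact Subgroup.commutator_commutator_eq_bot_of_rotate h1 h2

/-- The terms `i` and `j` of the lower central series commute into term `i + j + 1`. -/
theorem commutator_lcs_le {G : Type} [Group G] : ∀ j i : ℕ,
    ⁅Subgroup.lowerCentralSeries (⊤ : Subgroup G) i,
      Subgroup.lowerCentralSeries (⊤ : Subgroup G) j⁆ ≤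
        Subgroup.lowerCentralSeries (⊤ : Subgroup G) (i + j + 1)
  | 0, i => le_rfl
  | j + 1, i => by
      set L := Subgroup.lowerCentralSeries (⊤ : Subgroup G)
      rw [Subgroup.commutator_comm]
      change ⁅⁅L j, ⊤⁆, L i⁆ ≤ L (i + (j + 1) + 1)
      refine commutator_le_of_rotate ?_ ?_
      · rw [Subgroup.commutator_comm ⊤ (L i)]
        exact (commutator_lcs_le j (i + 1)).trans_eq (by congr 1; omega)
      · exact (Subgroup.commutator_mono (commutator_lcs_le j i) le_rfl).trans_eq
          (congrArg L (by omega : i + j + 1 + 1 = i + (j + 1) + 1))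

theorem comm_of_commutator_eq_bot {G : Type} [Group G] {N : Subgroup G} (hN : ⁅N, N⁆ ≤ ⊥) :
    ∀ a ∈ N, ∀ b ∈ N, a * b = b * a := fun a ha b hb => by
  rw [← commutatorElement_eq_one_iff_mul_comm, ← Subgroup.mem_bot]
  exact hN (Subgroup.commutator_mem_commutator ha hb)

/-- Nilpotent groups of class less than `2 ^ (k + 2)`. -/
theorem hle_nilpotent : ∀ (k : ℕ) {G : Type} [Group G] [Finite G],
    Subgroup.lowerCentralSeries (⊤ : Subgroup G) (2 ^ (k + 2) - 1) = ⊥ →
      ∀ {α : Type} [Finite α] (f : α → G) (S : Set G),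
        HLE (lset fun w => (w.map f).prod ∈ S) (k + 1)
  | 0, G, _, _, hG, α, _, f, S =>
      hle_class_four (abelian_of_class_three hG).1 (abelian_of_class_three hG).2 f S
  | k + 1, G, _, _, hG, α, _, f, S => by
      set m := 2 ^ (k + 2) - 1 with hm
      have hN : ⁅Subgroup.lowerCentralSeries (⊤ : Subgroup G) m,
          Subgroup.lowerCentralSeries (⊤ : Subgroup G) m⁆ ≤ ⊥ := by
        refine (commutator_lcs_le m m).trans_eq ?_
        have : m + m + 1 = 2 ^ (k + 1 + 2) - 1 := by
          have := Nat.one_le_two_pow (n := k + 2)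
          have : 2 ^ (k + 1 + 2) = 2 * 2 ^ (k + 2) := by ring
          omega
        rw [this, hG]
      refine hle_extension _ (comm_of_commutator_eq_bot hN) f (fun T => ?_) S
      refine hle_nilpotent k ?_ _ T
      rw [← Subgroup.map_top_of_surjective _ (QuotientGroup.mk'_surjective
        (Subgroup.lowerCentralSeries (⊤ : Subgroup G) m)), ← Subgroup.map_lowerCentralSeries,
        Subgroup.map_eq_bot_iff, QuotientGroup.ker_mk']

/-- Solvable groups of derived length at most `d`. -/
theorem hle_solvable : ∀ (d : ℕ) {G : Type} [Group G] [Finite G], derivedSeries G d = ⊥ →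
    ∀ {α : Type} [Finite α] (f : α → G) (S : Set G), HLE (lset fun w => (w.map f).prod ∈ S) d
  | 0, G, _, _, hG, α, _, f, S => by
      have h1 : ∀ g : G, g = 1 := fun g => Subgroup.mem_bot.1 (hG ▸ Subgroup.mem_top g)
      exact (HLE.const ((1 : G) ∈ S)).congr fun w => by simp [h1 ((w.map f).prod)]
  | d + 1, G, _, _, hG, α, _, f, S => by
      have : (derivedSeries G d).Normal := derivedSeries_normal G d
      refine hle_extension (derivedSeries G d)
        (comm_of_commutator_eq_bot (le_of_eq hG)) f (fun T => ?_) S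
      refine hle_solvable d ?_ _ T
      rw [← map_derivedSeries_eq (QuotientGroup.mk'_surjective _), Subgroup.map_eq_bot_iff,
        QuotientGroup.ker_mk']

end Vale.Agent.P329
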