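import Vale.Agent.P329.StarFree
import Vale.Agent.P329.Count

/-!
Block products of a finite abelian group with a finite monoid: counting, modulo `N`, the positions
with prescribed prefix value, letter and suffix value costs one more star.
-/

namespace Vale.Agent.P329

open Classical

variable {α T M : Type} [Monoid T] (f : α → T)

/-- The number of positions of the word carrying `b`, with prefix value `t` after `p` and suffix
value `r` before `c`. -/
noncomputable def marks (t : T) (b : α) (r : T) : T → T → List α → ℕ
  | _, _, [] => 0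
  | p, c, x :: w => (if p = t ∧ x = b ∧ (w.map f).prod * c = r then 1 else 0) +
      marks t b r (p * f x) c w

variable {f}

theorem marks_append {t r : T} {b : α} : ∀ (u v : List α) (p c : T),
    marks f t b r p c (u ++ v) = marks f t b r p ((v.map f).prod * c) u +
      marks f t b r (p * (u.map f).prod) c v
  | [], v, p, c => by simp [marks]
  | x :: u, v, p, c => by
      simp only [List.cons_append, marks, marks_append u v, List.map_append, List.prod_append,
        List.map_cons, List.prod_cons, mul_assoc]
      omega

theorem marks_eq_zero_iff {t r : T} {b : α} : ∀ (w : List α) (p c : T),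
    marks f t b r p c w = 0 ↔ ¬ ∃ u v : List α, w = u ++ b :: v ∧ p * (u.map f).prod = t ∧
      (v.map f).prod * c = r
  | [], p, c => by simp [marks]
  | x :: w, p, c => by
      simp only [marks, Nat.add_eq_zero_iff, marks_eq_zero_iff w]
      constructor
      · rintro ⟨h1, h2⟩ ⟨u, v, e, hu, hv⟩
        cases u with
        | nil =>
          simp only [List.nil_append, List.cons.injEq] at e
          obtain ⟨rfl, rfl⟩ := e
          simp [show p = t by simpa using hu, hv] at h1
        | cons y u =>
          simp only [List.cons_append, List.cons.injEq] at e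
          obtain ⟨rfl, rfl⟩ := e
          exact h2 ⟨u, v, rfl, by simpa [mul_assoc] using hu, hv⟩
      · intro H
        refine ⟨?_, ?_⟩
        · rw [if_neg]
          rintro ⟨hp, rfl, hw⟩
          exact H ⟨[], w, rfl, by simpa using hp, hw⟩
        · rintro ⟨u, v, rfl, hu, hv⟩
          exact H ⟨x :: u, v, rfl, by simpa [mul_assoc] using hu, hv⟩

theorem marks_succ_split {t r : T} {b : α} : ∀ (w : List α) (p c : T) (m : ℕ),
    marks f t b r p c w = m + 1 → ∃ u v : List α, w = u ++ b :: v ∧ p * (u.map f).prod = t ∧
      (v.map f).prod * c = r ∧ marks f t b r p (f b * r) u = 0 ∧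
        marks f t b r (t * f b) c v = m
  | [], p, c, m, h => by simp [marks] at h
  | x :: w, p, c, m, h => by
      by_cases he : p = t ∧ x = b ∧ (w.map f).prod * c = r
      · simp only [marks, if_pos he] at h
        obtain ⟨rfl, rfl, hw⟩ := he
        exact ⟨[], w, rfl, by simp, hw, rfl, by omega⟩
      · simp only [marks, if_neg he, zero_add] at h
        obtain ⟨u, v, rfl, hu, hv, h0, hm⟩ := marks_succ_split w (p * f x) c m h
        refine ⟨x :: u, v, rfl, by simpa [mul_assoc] using hu, hv, ?_, hm⟩
        simp only [marks, h0, add_zero]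
        rw [if_neg]
        rintro ⟨h1, h2, h3⟩
        exact he ⟨h1, h2, by simpa [mul_assoc, hv] using h3⟩

theorem hle_marks_zero [Finite T] {h : ℕ}
    (hT : ∀ x : T, HLE (lset fun w : List α => (w.map f).prod = x) h) (t r : T) (b : α) (p c : T) :
    HLE (lset fun w : List α => marks f t b r p c w = 0) h := by
  have hF : ∀ P : T → Prop, HLE (lset fun w : List α => P (w.map f).prod) h := fun P =>
    (HLE.exists_fin fun i : {i : T // P i} =>
      hT i.1).congr fun w => by simp
  refine ((((hF fun x => p * x = t).mul (HLE.char b)).mul (hF fun x => x * c = r)).compl).congr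
    fun w => ?_
  rw [marks_eq_zero_iff, mem_compl_iff, not_iff_not]
  simp only [Language.mem_mul, mem_single, mem_lset]
  constructor
  · rintro ⟨_, ⟨u, hu, _, rfl, rfl⟩, v, hv, rfl⟩
    exact ⟨u, v, by simp, hu, hv⟩
  · rintro ⟨u, v, rfl, hu, hv⟩
    exact ⟨u ++ [b], ⟨u, hu, [b], rfl, rfl⟩, v, hv, by simp⟩

variable (f) in
/-- The words up to the first mark after `p`, when the suffix value at that mark is `r`. -/
def firstMark (t : T) (b : α) (r : T) (p : T) : Language α :=
  lset fun w => ∃ u : List α, w = u ++ [b] ∧ p * (u.map f).prod = t ∧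
    marks f t b r p (f b * r) u = 0

variable (f) in
/-- The words between two consecutive marks. -/
def midMark (t : T) (b : α) (r : T) : Language α :=
  lset fun w => w ∈ firstMark f t b r (t * f b) ∧ (w.map f).prod * r = r

variable (f) in
/-- The unmarked words after the last mark. -/
def lastMark (t : T) (b : α) (r : T) : Language α :=
  lset fun w => marks f t b r (t * f b) 1 w = 0 ∧ (w.map f).prod = r

theorem hle_firstMark [Finite T] {h : ℕ}
    (hT : ∀ x : T, HLE (lset fun w : List α => (w.map f).prod = x) h) (t r : T) (b : α) (p : T) :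
    HLE (firstMark f t b r p) h := by
  have hF : HLE (lset fun w : List α => p * (w.map f).prod = t) h :=
    (HLE.exists_fin fun i : {i : T // p * i = t} =>
      hT i.1).congr fun w => by simp
  refine ((hF.and (hle_marks_zero (f := f) hT t r b p (f b * r))).mul (HLE.char b)).congr fun w => ?_
  simp only [mem_mul_single, mem_lset]
  constructor
  · rintro ⟨u, ⟨h1, h2⟩, rfl⟩
    exact ⟨u, rfl, h1, h2⟩
  · rintro ⟨u, rfl, h1, h2⟩
    exact ⟨u, ⟨h1, h2⟩, rfl⟩

theorem mem_midMark_pow {t r : T} {b : α} : ∀ (i : ℕ) (w : List α),
    w ∈ midMark f t b r ^ i * lastMark f t b r ↔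
      marks f t b r (t * f b) 1 w = i ∧ (w.map f).prod = r
  | 0, w => by rw [pow_zero, one_mul]; rfl
  | i + 1, w => by
      rw [pow_succ', mul_assoc]
      simp only [Language.mem_mul (l := midMark f t b r)]
      constructor
      · rintro ⟨_, ⟨⟨u, rfl, hu, h0⟩, hr⟩, v, hv, rfl⟩
        obtain ⟨hc, hvr⟩ := (mem_midMark_pow i v).1 hv
        simp only [List.map_append, List.map_cons, List.map_nil, List.prod_append, List.prod_cons,
          List.prod_nil, mul_one] at hr
        constructor
        · rw [List.append_assoc, List.singleton_append, marks_append]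
          simp only [List.map_cons, List.prod_cons, mul_one, hvr, h0, marks, hu]
          simp [hc, add_comm]
        · simp [hvr, ← mul_assoc, hr]
      · rintro ⟨hc, hr⟩
        obtain ⟨u, v, rfl, hu, hv, h0, hm⟩ := marks_succ_split w _ _ i hc
        rw [mul_one] at hv
        refine ⟨u ++ [b], ⟨⟨u, rfl, hu, h0⟩, ?_⟩, v, (mem_midMark_pow i v).2 ⟨hm, hv⟩, by simp⟩
        simpa [mul_assoc, hv] using hr

theorem hle_marks_mod [Finite T] {h : ℕ}
    (hT : ∀ x : T, HLE (lset fun w : List α => (w.map f).prod = x) h) (t r : T) (b : α) (N : ℕ)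
    [NeZero N] (j : ZMod N) :
    HLE (lset fun w : List α => (marks f t b r 1 1 w : ZMod N) = j) (h + 1) := by
  set K := midMark f t b r
  set E := lastMark f t b r
  set i := (j - 1).val
  have hF : ∀ P : T → Prop, HLE (lset fun w : List α => P (w.map f).prod) h := fun P =>
    (HLE.exists_fin fun i : {i : T // P i} =>
      hT i.1).congr fun w => by simp
  have hK : HLE K h :=
    ((hle_firstMark (f := f) hT t r b (t * f b)).congr (P := fun w => w ∈ firstMark f t b r (t * f b))
      fun _ => Iff.rfl).and (hF fun x => x * r = r)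
  have hE : HLE E h := (hle_marks_zero (f := f) hT t r b (t * f b) 1).and (hF fun x => x = r)
  have h0 : HLE (lset fun w : List α => (0 : ZMod N) = j ∧ marks f t b r 1 1 w = 0) (h + 1) :=
    (HLE.const ((0 : ZMod N) = j)).and ((hle_marks_zero (f := f) hT t r b 1 1).mono (by omega))
  have h1 : HLE (firstMark f t b r 1 * (KStar.kstar (K ^ N) * (K ^ i * E))) (h + 1) :=
    ((hle_firstMark (f := f) hT t r b 1).mono (by omega)).mul
      ((hK.pow N).star.mul (((hK.mono (by omega)).pow i).mul (hE.mono (by omega))))
  have hstar : ∀ v : List α, v ∈ KStar.kstar (K ^ N) * (K ^ i * E) ↔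
      ∃ l : ℕ, marks f t b r (t * f b) 1 v = N * l + i ∧ (v.map f).prod = r := by
    intro v
    rw [Language.kstar_eq_iSup_pow, Language.iSup_mul]
    simp only [Language.mem_iSup, ← pow_mul, ← mul_assoc, ← pow_add]
    exact exists_congr fun l => mem_midMark_pow (N * l + i) v
  refine (h0.or (h1.congr (P := fun w => w ∈ _) fun _ => Iff.rfl)).congr fun w => ?_
  simp only [mem_lset, Language.mem_mul (l := firstMark f t b r 1), hstar]
  constructor
  · rintro (⟨hj, hc⟩ | ⟨_, ⟨u, rfl, hu, hu0⟩, v, ⟨l, hc, hr⟩, rfl⟩)
    · simp [hc, hj]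
    · have h : marks f t b r 1 1 (u ++ b :: v) = 1 + (N * l + i) := by
        rw [marks_append]
        simp only [List.map_cons, List.prod_cons, mul_one, hr, hu0, marks, hu]
        simp [hc]
      rw [List.append_assoc, List.singleton_append, h]
      simp [i]
  · intro hc
    cases hn : marks f t b r 1 1 w with
    | zero => exact Or.inl ⟨by simpa [hn] using hc, rfl⟩
    | succ m =>
      right
      obtain ⟨u, v, rfl, hu, hv, hu0, hm⟩ := marks_succ_split w _ _ m hn
      rw [mul_one] at hv
      refine ⟨u ++ [b], ⟨u, rfl, hu, hu0⟩, v, ⟨m / N, ?_, hv⟩, by simp⟩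
      rw [hn] at hc
      have hj : (m : ZMod N) = j - 1 := by rw [← hc]; simp
      rw [hm, show i = m % N by simp [i, ← hj, ZMod.val_natCast], Nat.div_add_mod]

variable (f) in
/-- The abelian component of the block product: the product over the positions of
`g (prefix value) letter (suffix value)`. -/
def blockProd [CommMonoid M] (g : T → α → T → M) : T → List α → M
  | _, [] => 1
  | p, x :: w => g p x (w.map f).prod * blockProd g (p * f x) w

theorem blockProd_eq [CommMonoid M] [Fintype α] [Fintype T] (g : T → α → T → M) :
    ∀ (w : List α) (p : T),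
      blockProd f g p w = ∏ i : T × α × T, g i.1 i.2.1 i.2.2 ^ marks f i.1 i.2.1 i.2.2 p 1 w
  | [], p => by simp [blockProd, marks]
  | x :: w, p => by
      simp only [blockProd, marks, pow_add, Finset.prod_mul_distrib, blockProd_eq g w, mul_one]
      congr 1
      rw [Finset.prod_eq_single (p, x, (w.map f).prod)]
      · simp
      · rintro ⟨t, b, r⟩ _ h
        rw [if_neg, pow_zero]
        rintro ⟨rfl, rfl, rfl⟩
        exact h rfl
      · simp

/-- A block product of a finite abelian group with a monoid raises the height by at most one. -/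
theorem hle_block [Finite α] [Finite T] [CommGroup M] [Finite M] (f : α → T) {h : ℕ}
    (hT : ∀ x : T, HLE (lset fun w : List α => (w.map f).prod = x) h)
    (g : T → α → T → M) (S : Set (M × T)) :
    HLE (lset fun w : List α => (blockProd f g 1 w, (w.map f).prod) ∈ S) (h + 1) := by
  have : Fintype α := Fintype.ofFinite α
  have : Fintype T := Fintype.ofFinite T
  set n := Nat.card M
  have : NeZero n := ⟨Nat.card_pos.ne'⟩
  let Φ : (T × α × T → ZMod n) → M := fun t => ∏ i, g i.1 i.2.1 i.2.2 ^ (t i).val
  have key : ∀ w : List α, blockProd f g 1 w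
      = Φ fun i => (marks f i.1 i.2.1 i.2.2 1 1 w : ZMod n) := by
    intro w
    rw [blockProd_eq]
    refine Finset.prod_congr rfl fun i _ => ?_
    simp only [ZMod.val_natCast]
    rw [← pow_mod_natCard]
  refine (HLE.exists_fin fun t : {t : (T × α × T → ZMod n) × T // (Φ t.1, t.2) ∈ S} =>
    (HLE.forall_fin fun i => hle_marks_mod (f := f) hT i.1 i.2.2 i.2.1 n (t.1.1 i)).and
      ((hT t.1.2).mono (by omega))).congr
    fun w => ?_
  simp only [mem_lset, key]
  constructor
  · rintro ⟨⟨⟨t, x⟩, ht⟩, h1, h2⟩
    rw [funext h1, h2]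
    exact ht
  · exact fun h => ⟨⟨(_, _), h⟩, fun i => rfl, rfl⟩

end Vale.Agent.P329
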