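import Vale.Agent.P329.Weights

/-!
Languages recognised by extensions of abelian groups by elementary abelian `p`-groups, and by
subdirect products of such groups, have generalized star height at most one.
-/

namespace Vale.Agent.P329

open Classical

variable {α : Type} {p : ℕ} {B : Type} [AddCommGroup B]

/-- The number of occurrences of `b` at prefix weight zero, starting from weight `r`. -/
noncomputable def eocc (π : α → B) (b : α) : B → List α → ℤ
  | _, [] => 0
  | r, x :: l => (if r = 0 ∧ x = b then 1 else 0) + eocc π b (r + π x) l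

section dual

variable [Fact p.Prime] [Module (ZMod p) B] [Fintype (B →ₗ[ZMod p] ZMod p)]

theorem dual_zero_count (r : B) :
    ((p : ℤ) * ∑ χ : B →ₗ[ZMod p] ZMod p, if χ r = 0 then 1 else 0) =
      (Nat.card (B →ₗ[ZMod p] ZMod p) : ℤ) +
        ((p : ℤ) - 1) * (Nat.card (B →ₗ[ZMod p] ZMod p) : ℤ) * (if r = 0 then 1 else 0) := by
  by_cases hr : r = 0
  · subst hr
    simp
    ring
  · let ev : (B →ₗ[ZMod p] ZMod p) →+ ZMod p :=
      { toFun := fun χ => χ r, map_zero' := rfl, map_add' := fun _ _ => rfl }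
    have hs : Function.Surjective ev := by
      obtain ⟨i, hi⟩ : ∃ i, (Module.Free.chooseBasis (ZMod p) B).repr r i ≠ 0 := by
        by_contra h
        push Not at h
        exact hr ((Module.Free.chooseBasis (ZMod p) B).repr.map_eq_zero_iff.1 (Finsupp.ext h))
      intro c
      refine ⟨(c / (Module.Free.chooseBasis (ZMod p) B).repr r i) •
        (Module.Free.chooseBasis (ZMod p) B).coord i, ?_⟩
      change c / _ * _ = c
      exact div_mul_cancel₀ c hi
    have h1 := AddSubgroup.card_mul_index ev.ker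
    rw [AddSubgroup.index_ker, AddMonoidHom.range_eq_top.2 hs, AddSubgroup.card_top,
      Nat.card_zmod] at h1
    have h2 : (∑ χ : B →ₗ[ZMod p] ZMod p, if χ r = 0 then (1 : ℤ) else 0) = Nat.card ev.ker := by
      rw [Finset.sum_boole]
      congr 1
      rw [Nat.card_eq_fintype_card, ← Fintype.card_subtype]
      exact Fintype.card_congr (Equiv.subtypeEquivRight fun χ => by simp [ev])
    rw [h2, if_neg hr, mul_zero, add_zero, ← h1]
    push_cast
    ring

theorem occ_sum (π : α → B) (b : α) : ∀ (l : List α) (r : B),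
    (p : ℤ) * ∑ χ : B →ₗ[ZMod p] ZMod p, occ (fun a => χ (π a)) b (χ r) l =
      (Nat.card (B →ₗ[ZMod p] ZMod p) : ℤ) * (l.count b : ℤ) +
        ((p : ℤ) - 1) * (Nat.card (B →ₗ[ZMod p] ZMod p) : ℤ) * eocc π b r l
  | [], r => by simp [occ, eocc]
  | x :: l, r => by
      have ih := occ_sum π b l (r + π x)
      simp only [map_add] at ih
      simp only [occ, eocc, Finset.sum_add_distrib, mul_add, ih]
      by_cases hx : x = b
      · subst hx
        simp only [and_true, List.count_cons_self, dual_zero_count]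
        push_cast
        ring
      · simp [hx]

end dual

theorem h1_eocc [Finite α] [Fact p.Prime] [Module (ZMod p) B] [Finite B] (π : α → B) (b : α)
    (r : B) : H1 (eocc π b r) := by
  have : Finite (B →ₗ[ZMod p] ZMod p) := Finite.of_injective _ DFunLike.coe_injective
  have : Fintype (B →ₗ[ZMod p] ZMod p) := Fintype.ofFinite _
  have hp : 2 ≤ p := Fact.out (p := p.Prime) |>.two_le
  have : NeZero ((p - 1) * Nat.card (B →ₗ[ZMod p] ZMod p)) :=
    ⟨Nat.mul_ne_zero (by omega) Nat.card_pos.ne'⟩
  refine H1.div ((p - 1) * Nat.card (B →ₗ[ZMod p] ZMod p)) ?_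
  refine ((H1.sum Finset.univ fun (χ : B →ₗ[ZMod p] ZMod p) _ => h1_occ (fun a => χ (π a)) b (χ r)).const_mul (p : ℤ)
    |>.sub ((h1_count b).const_mul (Nat.card (B →ₗ[ZMod p] ZMod p) : ℤ))).congr fun l => ?_
  rw [occ_sum]
  push_cast [Nat.cast_sub (by omega : 1 ≤ p)]
  ring

section product

variable {M : Type} [CommGroup M] (π : α → B) (c : B → α → M)

/-- The product of the cocycle `c` along the path starting at `v`. -/
def pathProd : B → List α → M
  | _, [] => 1
  | v, x :: l => c v x * pathProd (v + π x) l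

theorem pathProd_eq [Fintype α] [Fintype B] : ∀ (l : List α) (v : B),
    pathProd π c v l = ∏ i : B × α, c i.1 i.2 ^ eocc π i.2 (v - i.1) l
  | [], v => by simp [pathProd, eocc]
  | x :: l, v => by
      simp only [pathProd, eocc, zpow_add, Finset.prod_mul_distrib]
      congr 1
      · rw [Finset.prod_eq_single (v, x)]
        · simp
        · rintro ⟨u, a⟩ _ h
          rw [if_neg, zpow_zero]
          rintro ⟨h1, rfl⟩
          exact h (by rw [sub_eq_zero] at h1; rw [h1])
        · simp
      · rw [pathProd_eq l (v + π x)]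
        exact Finset.prod_congr rfl fun i _ => by rw [add_sub_right_comm]

theorem sum_map_eq [Fintype α] : ∀ l : List α,
    (l.map π).sum = ∑ a : α, (l.count a : ℤ) • π a
  | [] => by simp
  | x :: l => by
      rw [List.map_cons, List.sum_cons, sum_map_eq l]
      simp only [List.count_cons, Nat.cast_add, add_zsmul, Finset.sum_add_distrib]
      rw [Finset.sum_eq_single (s := Finset.univ) (f := fun a =>
        ((if (x == a) = true then 1 else 0 : ℕ) : ℤ) • π a) x]
      · simp [add_comm]
      · intro a _ h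
        simp [Ne.symm h]
      · simp

end product

theorem hle_metabelian [Finite α] {G : Type} [Group G] [Finite G] (p : ℕ) (hp : p.Prime)
    (N : Subgroup G) [N.Normal] (hN : ∀ a ∈ N, ∀ b ∈ N, a * b = b * a)
    (hQ : ∀ a b : G, a * b * a⁻¹ * b⁻¹ ∈ N) (hpow : ∀ a : G, a ^ p ∈ N) (f : α → G) (S : Set G) :
    HLE (lset fun w => (w.map f).prod ∈ S) 1 := by
  have : Fact p.Prime := ⟨hp⟩
  have : Fintype α := Fintype.ofFinite α
  let : CommGroup (G ⧸ N) :=
    { (inferInstance : Group (G ⧸ N)) with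
      mul_comm := by
        rintro ⟨a⟩ ⟨b⟩
        change (QuotientGroup.mk (a * b) : G ⧸ N) = QuotientGroup.mk (b * a)
        rw [QuotientGroup.eq]
        have := hQ b⁻¹ a⁻¹
        simpa [mul_assoc] using this }
  let : CommGroup N :=
    { (inferInstance : Group N) with mul_comm := fun a b => Subtype.ext (hN a a.2 b b.2) }
  let : Module (ZMod p) (Additive (G ⧸ N)) := AddCommGroup.zmodModule fun x => by
    obtain ⟨a, rfl⟩ : ∃ a : G, Additive.ofMul (QuotientGroup.mk a : G ⧸ N) = x :=
      QuotientGroup.mk_surjective (Additive.toMul x)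
    rw [← ofMul_pow, ← QuotientGroup.mk_pow, (QuotientGroup.eq_one_iff _).2 (hpow a)]
    rfl
  have : Finite (Additive (G ⧸ N)) := inferInstanceAs (Finite (G ⧸ N))
  have : Fintype (Additive (G ⧸ N)) := Fintype.ofFinite _
  let π : α → Additive (G ⧸ N) := fun a => Additive.ofMul (QuotientGroup.mk (f a))
  let s : Additive (G ⧸ N) → G := fun v => (Additive.toMul v).out
  have hs : ∀ v, (QuotientGroup.mk (s v) : G ⧸ N) = Additive.toMul v := fun v =>
    QuotientGroup.out_eq' _
  have hc : ∀ v a, s v * f a * (s (v + π a))⁻¹ ∈ N := fun v a => by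
    rw [← QuotientGroup.eq_one_iff]
    simp [hs, π]
  let c : Additive (G ⧸ N) → α → N := fun v a => ⟨_, hc v a⟩
  have hprod : ∀ (l : List α) (v : Additive (G ⧸ N)),
      s v * (l.map f).prod = ((pathProd π c v l : N) : G) * s (v + (l.map π).sum) := by
    intro l
    induction l with
    | nil => simp [pathProd]
    | cons x l ih =>
      intro v
      simp only [List.map_cons, List.sum_cons, List.prod_cons, pathProd, Subgroup.coe_mul]
      rw [← add_assoc, mul_assoc (c v x : G), ← ih]
      simp [c, mul_assoc]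
  have : NeZero (Nat.card G) := ⟨Nat.card_pos.ne'⟩
  set n := Nat.card G
  let Φ : (Additive (G ⧸ N) × α → ZMod n) × (α → ZMod n) → G := fun t =>
    (s 0)⁻¹ * ((∏ i : Additive (G ⧸ N) × α, c i.1 i.2 ^ (t.1 i).val : N) : G) *
      s (∑ a, (t.2 a).val • π a)
  have hG : ∀ (g : G) (z : ℤ), g ^ z = g ^ (z : ZMod n).val := fun g z => by
    rw [← zpow_natCast, zpow_eq_zpow_iff_modEq]
    refine Int.ModEq.of_dvd (Int.natCast_dvd_natCast.2 (orderOf_dvd_natCard g)) ?_
    rw [← ZMod.intCast_eq_intCast_iff]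
    simp
  have hkey : ∀ l : List α, (l.map f).prod =
      Φ (fun i => (eocc π i.2 (0 - i.1) l : ZMod n), fun a => ((l.count a : ℤ) : ZMod n)) := by
    intro l
    have h1 : ∀ (g : N) (z : ℤ), g ^ z = g ^ (z : ZMod n).val := fun g z =>
      Subtype.ext (by simpa using hG g z)
    have h2 : ∀ (v : Additive (G ⧸ N)) (z : ℤ), z • v = (z : ZMod n).val • v := by
      intro v z
      obtain ⟨a, rfl⟩ : ∃ a : G, Additive.ofMul (QuotientGroup.mk a : G ⧸ N) = v :=
        QuotientGroup.mk_surjective (Additive.toMul v)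
      rw [← ofMul_zpow, ← ofMul_pow, ← QuotientGroup.mk_zpow, ← QuotientGroup.mk_pow, hG]
    have := hprod l 0
    rw [pathProd_eq, sum_map_eq, zero_add] at this
    simp only [h1, h2] at this
    simp only [Φ, mul_assoc, ← this]
    simp
  refine (HLE.exists_fin fun t : {t // Φ t ∈ S} =>
    ((HLE.forall_fin fun i : Additive (G ⧸ N) × α =>
        h1_eocc (p := p) π i.2 (0 - i.1) n (t.1.1 i)).and
      (HLE.forall_fin fun a : α => h1_count a n (t.1.2 a)))).congr fun l => ?_
  simp only [mem_lset, hkey l]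
  constructor
  · rintro ⟨⟨⟨t1, t2⟩, ht⟩, h1, h2⟩
    rw [funext h1, funext h2]
    exact ht
  · exact fun h => ⟨⟨_, h⟩, fun i => rfl, fun a => rfl⟩

theorem hle_metabelian_family [Finite α] {G : Type} [Group G] [Finite G] {ι : Type} [Finite ι]
    (p : ι → ℕ) (hp : ∀ i, (p i).Prime) (K N : ι → Subgroup G) [∀ i, (K i).Normal]
    [∀ i, (N i).Normal] (hK : ∀ g : G, (∀ i, g ∈ K i) → g = 1)
    (hN : ∀ i, ∀ a ∈ N i, ∀ b ∈ N i, a * b * a⁻¹ * b⁻¹ ∈ K i)
    (hQ : ∀ i, ∀ a b : G, a * b * a⁻¹ * b⁻¹ ∈ N i) (hpow : ∀ i, ∀ a : G, a ^ p i ∈ N i)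
    (f : α → G) (S : Set G) : HLE (lset fun w => (w.map f).prod ∈ S) 1 := by
  have hi : ∀ i (g : G), HLE (lset fun w =>
      (QuotientGroup.mk' (K i) (w.map f).prod) = QuotientGroup.mk' (K i) g) 1 := by
    intro i g
    have hn : ((N i).map (QuotientGroup.mk' (K i))).Normal :=
      Subgroup.Normal.map inferInstance _ (QuotientGroup.mk'_surjective _)
    refine (hle_metabelian (p i) (hp i) ((N i).map (QuotientGroup.mk' (K i))) ?_ ?_ ?_
      (fun a => QuotientGroup.mk' (K i) (f a)) {QuotientGroup.mk' (K i) g}).congr fun w => ?_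
    · rintro _ ⟨a, ha, rfl⟩ _ ⟨b, hb, rfl⟩
      rw [← map_mul, ← map_mul]
      refine QuotientGroup.eq.2 ?_
      simpa [mul_assoc] using hN i b⁻¹ (inv_mem hb) a⁻¹ (inv_mem ha)
    · intro a b
      obtain ⟨a, rfl⟩ := QuotientGroup.mk'_surjective _ a
      obtain ⟨b, rfl⟩ := QuotientGroup.mk'_surjective _ b
      exact ⟨_, hQ i a b, by simp⟩
    · intro a
      obtain ⟨a, rfl⟩ := QuotientGroup.mk'_surjective _ a
      exact ⟨_, hpow i a, by simp⟩
    · simp only [mem_lset, Set.mem_singleton_iff, map_list_prod, List.map_map]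
      rfl
  refine (HLE.exists_fin fun g : S => HLE.forall_fin fun i => hi i g.1).congr fun w => ?_
  simp only [mem_lset]
  constructor
  · rintro ⟨⟨g, hg⟩, h⟩
    have : (w.map f).prod⁻¹ * g = 1 := hK _ fun i => QuotientGroup.eq.1 (h i)
    rwa [inv_mul_eq_one.1 this]
  · exact fun h => ⟨⟨_, h⟩, fun i => rfl⟩

end Vale.Agent.P329
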