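import Vale.Agent.P329.Weights

/-!
Sums of polynomials of degree at most two in the prefix letter counts, over the occurrences of a
letter, have all residue classes of generalized star height at most one.
-/

namespace Vale.Agent.P329

open Classical

variable {α : Type} {m : ℕ} {w : α → ZMod m} {P : Option α → α → Prop}

theorem waut01_cnt [NeZero m] (hw : ∀ a, w a = 0 ∨ w a = 1) (hP : ∀ f y, P f y → w y = 0) :
    ∀ (u : List α) (q : ZMod m × Option α), (waut w P).cnt q u = 0 →
      q.1.val + u.countP (fun a => decide (w a ≠ 0)) < m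
  | [], q, _ => by simpa using ZMod.val_lt q.1
  | x :: u, q, hc => by
      simp only [EvAut.cnt, Nat.add_eq_zero_iff] at hc
      have ih := waut01_cnt hw hP u _ hc.2
      have h1 : ((waut w P).step q x).1 = q.1 + w x := by
        simp only [waut, wstep]; split <;> simp [*]
      rw [h1] at ih
      rw [List.countP_cons]
      by_cases hx : w x = 0
      · simpa [hx] using ih
      · have hx1 : w x = 1 := (hw x).resolve_left hx
        have hne : q.1 + 1 ≠ 0 := by
          intro h
          have := hc.1
          simp [waut, hx1, h, fun f => mt (hP f x) hx] at this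
        have hval : (q.1 + 1).val = q.1.val + 1 := by
          have hm : 1 < m := by
            by_contra hm
            have : m = 1 := by have := NeZero.ne m; omega
            subst this
            exact hne (Subsingleton.elim _ _)
          have : Fact (1 < m) := ⟨hm⟩
          have hlt : q.1.val + 1 < m := by
            rcases Nat.lt_or_ge (q.1.val + 1) m with h | h
            · exact h
            · exfalso
              have := ZMod.val_lt q.1
              apply hne
              have he : q.1.val + 1 = m := by omega
              rw [← ZMod.natCast_zmod_val q.1, ← Nat.cast_one, ← Nat.cast_add, he, ZMod.natCast_self]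
          rw [ZMod.val_add_of_lt] <;> rw [ZMod.val_one]
          exact hlt
        rw [hx1, hval] at ih
        simp only [hx, decide_true, ne_eq, not_false_eq_true, if_true] at ih ⊢
        omega

theorem sum_eq_countP (hw : ∀ a, w a = 0 ∨ w a = 1) : ∀ u : List α,
    (u.map w).sum = ((u.countP fun a => decide (w a ≠ 0) : ℕ) : ZMod m)
  | [] => by simp
  | x :: u => by
      rw [List.map_cons, List.sum_cons, sum_eq_countP hw u, List.countP_cons]
      by_cases hx : w x = 0
      · simp [hx]
      · simp [(hw x).resolve_left hx, add_comm]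

theorem countP_rep (g : α → Bool) (u : List α) :
    ∀ i, (EvAut.rep u i).countP g = i * u.countP g
  | 0 => by simp [EvAut.rep]
  | i + 1 => by simp [EvAut.rep, countP_rep g u i]; ring

theorem waut01_counterFree [NeZero m] (hw : ∀ a, w a = 0 ∨ w a = 1)
    (hP : ∀ f y, P f y → w y = 0) : (waut w P).CounterFree := by
  intro u x k hc hr
  have hN := waut01_cnt hw hP _ x hc
  have hs := waut_run_fst (w := w) (P := P) (EvAut.rep u (k + 1)) x
  rw [hr, left_eq_add, sum_eq_countP hw, ZMod.natCast_eq_zero_iff] at hs
  have h0 : (EvAut.rep u (k + 1)).countP (fun a => decide (w a ≠ 0)) = 0 :=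
    Nat.eq_zero_of_dvd_of_lt hs (by omega)
  rw [countP_rep, mul_eq_zero] at h0
  have hS : (u.map w).sum = 0 := by
    rw [sum_eq_countP hw, h0.resolve_left (by omega), Nat.cast_zero]
  rcases waut_dich (w := w) (P := P) u x.1 with hl | ⟨c, hc'⟩
  · have := hl x.2
    rw [hS, add_zero] at this
    exact this
  · have h1 : c.1 = x.1 := by
      rw [← hc' x.2, waut_run_fst, hS, add_zero]
    have hcc : ∀ i, (waut w P).run c (EvAut.rep u i) = c := by
      intro i
      induction i with
      | zero => rfl
      | succ i ih =>
        have : (waut w P).run c u = c := by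
          have := hc' c.2
          rw [← h1] at this
          exact this
        rw [EvAut.rep, EvAut.run_append, this, ih]
    have hxc : (waut w P).run x u = c := hc' x.2
    rw [EvAut.rep, EvAut.run_append, hxc, hcc] at hr
    rw [hxc, hr]

theorem h1_occ01 [Finite α] [NeZero m] (hw : ∀ a, w a = 0 ∨ w a = 1) {b : α} (hb : w b = 0)
    (r : ZMod m) : H1 (occ w b r) :=
  (((waut w fun _ _ => False).h1_cnt (waut01_counterFree hw fun _ _ h => h.elim) (r, none)).sub
    ((waut w fun _ x => x = b).h1_cnt (waut01_counterFree hw fun _ _ h => h ▸ hb) (r, none))).congr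
      fun l => (occ_eq_of_weight_zero w hb l (r, none)).symm

theorem H1.mul {F G : List α → ℤ} (hF : H1 F) (hG : H1 G) : H1 (fun l => F l * G l) := by
  intro N _ j
  refine (HLE.exists_fin fun i : {i : ZMod N × ZMod N // i.1 * i.2 = j} =>
    (hF N i.1.1).and (hG N i.1.2)).congr fun l => ?_
  simp only [mem_lset, Int.cast_mul]
  constructor
  · rintro ⟨⟨i, hi⟩, h1, h2⟩
    rw [h1, h2, hi]
  · exact fun h => ⟨⟨(_, _), h⟩, rfl, rfl⟩

/-- The sum of `F` (prefix letter counts) over the occurrences of `b`. -/
noncomputable def posSum (b : α) (F : (α → ℕ) → ℤ) : (α → ℕ) → List α → ℤ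
  | _, [] => 0
  | v, x :: l => (if x = b then F v else 0) + posSum b F (v + Pi.single x 1) l

/-- Good functions: their sums over the occurrences of `b` are in `H1`. -/
def Good (b : α) (F : (α → ℕ) → ℤ) : Prop := H1 (posSum b F 0)

theorem posSum_add (b : α) (F G : (α → ℕ) → ℤ) : ∀ (l : List α) (v : α → ℕ),
    posSum b (fun v => F v + G v) v l = posSum b F v l + posSum b G v l
  | [], v => by simp [posSum]
  | x :: l, v => by
      simp only [posSum, posSum_add b F G l]
      split <;> ring

theorem posSum_const_mul (b : α) (c : ℤ) (F : (α → ℕ) → ℤ) : ∀ (l : List α) (v : α → ℕ),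
    posSum b (fun v => c * F v) v l = c * posSum b F v l
  | [], v => by simp [posSum]
  | x :: l, v => by
      simp only [posSum, posSum_const_mul b c F l]
      split <;> ring

theorem Good.add {b : α} {F G : (α → ℕ) → ℤ} (hF : Good b F) (hG : Good b G) :
    Good b (fun v => F v + G v) :=
  (H1.add hF hG).congr fun l => (posSum_add b F G l 0).symm

theorem Good.const_mul {b : α} {F : (α → ℕ) → ℤ} (hF : Good b F) (c : ℤ) :
    Good b (fun v => c * F v) :=
  (H1.const_mul hF c).congr fun l => (posSum_const_mul b c F l 0).symm

theorem Good.congr {b : α} {F G : (α → ℕ) → ℤ} (hF : Good b F) (h : ∀ v, F v = G v) : Good b G :=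
  (funext h : F = G) ▸ hF

theorem Good.of_mul {b : α} {F : (α → ℕ) → ℤ} (d : ℕ) [NeZero d]
    (h : Good b fun v => (d : ℤ) * F v) : Good b F :=
  H1.div d (H1.congr h fun l => posSum_const_mul b d F l 0)

/-- The total count of the letters of `T`. -/
def wt (T : Finset α) (v : α → ℕ) : ℕ := ∑ a ∈ T, v a

theorem wt_step (T : Finset α) (v : α → ℕ) (x : α) :
    wt T (v + Pi.single x 1) = wt T v + if x ∈ T then 1 else 0 := by
  simp [wt, Finset.sum_add_distrib, Pi.single_apply]

theorem posSum_eq_occ (T : Finset α) (φ : ℕ → ℤ) (b : α) (N : ℕ) [NeZero N]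
    (hφ : ∀ n, (φ n : ZMod N) = φ (n % N)) : ∀ (l : List α) (v : α → ℕ),
    (posSum b (fun v => φ (wt T v)) v l : ZMod N) =
      ((∑ r : ZMod N, φ r.val *
        occ (fun a => if a ∈ T then (1 : ZMod N) else 0) b ((wt T v : ZMod N) - r) l : ℤ) : ZMod N)
  | [], v => by simp [posSum, occ]
  | x :: l, v => by
      simp only [posSum, occ, Int.cast_add, posSum_eq_occ T φ b N hφ l, mul_add,
        Finset.sum_add_distrib]
      congr 1
      · by_cases hx : x = b
        · simp only [hx, if_true, and_true, mul_ite, mul_one, mul_zero, sub_eq_zero]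
          rw [Finset.sum_ite_eq, if_pos (Finset.mem_univ _), hφ, ZMod.val_natCast]
        · simp [hx]
      · rw [wt_step]
        push_cast
        refine Finset.sum_congr rfl fun r _ => ?_
        congr 3
        ring

theorem good_wt_pow [Finite α] (T : Finset α) {b : α} (hb : b ∉ T) (i : ℕ) :
    Good b (fun v => (wt T v : ℤ) ^ i) := by
  intro N _ j
  have hφ : ∀ n : ℕ, (((n : ℤ) ^ i : ℤ) : ZMod N) = ((((n % N : ℕ) : ℤ) ^ i : ℤ) : ZMod N) :=
    fun n => by simp
  refine ((H1.sum Finset.univ fun (r : ZMod N) _ =>
    (h1_occ01 (w := fun a => if a ∈ T then (1 : ZMod N) else 0) (b := b)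
      (fun a => by by_cases h : a ∈ T <;> simp [h]) (by simp [hb]) (0 - r)).const_mul
        ((r.val : ℤ) ^ i)) N j).congr fun l => ?_
  simp only [mem_lset]
  rw [posSum_eq_occ T (fun n => (n : ℤ) ^ i) b N hφ l 0]
  simp [wt]

variable [Finite α]

theorem good_const (b : α) (c : ℤ) : Good b (fun _ => c) :=
  ((good_wt_pow (∅ : Finset α) (b := b) (by simp) 0).const_mul c).congr fun v => by simp

omit [Finite α] in
theorem posSum_self (b : α) : ∀ (l : List α) (v : α → ℕ),
    2 * posSum b (fun v => (v b : ℤ)) v l =
      (v b + l.count b : ℤ) ^ 2 - (v b : ℤ) ^ 2 - (l.count b : ℤ)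
  | [], v => by simp [posSum]
  | x :: l, v => by
      simp only [posSum, mul_add, posSum_self b l, List.count_cons]
      by_cases hx : x = b
      · subst hx; simp; ring
      · simp [hx, Ne.symm hx]

omit [Finite α] in
theorem posSum_self_sq (b : α) : ∀ (l : List α) (v : α → ℕ),
    6 * posSum b (fun v => (v b : ℤ) * v b) v l =
      (2 * (v b + l.count b : ℤ) ^ 3 - 3 * (v b + l.count b : ℤ) ^ 2 + (v b + l.count b : ℤ)) -
        (2 * (v b : ℤ) ^ 3 - 3 * (v b : ℤ) ^ 2 + (v b : ℤ))
  | [], v => by simp [posSum]
  | x :: l, v => by
      simp only [posSum, mul_add, posSum_self_sq b l, List.count_cons]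
      by_cases hx : x = b
      · subst hx; simp; ring
      · simp [hx, Ne.symm hx]

omit [Finite α] in
theorem posSum_mixed {a b : α} (hab : a ≠ b) : ∀ (l : List α) (v : α → ℕ),
    posSum a (fun v => (v b : ℤ) * v b) v l + 2 * posSum b (fun v => (v a : ℤ) * v b) v l +
        posSum b (fun v => (v a : ℤ)) v l =
      (v a + l.count a : ℤ) * (v b + l.count b : ℤ) ^ 2 - (v a : ℤ) * (v b : ℤ) ^ 2
  | [], v => by simp [posSum]
  | x :: l, v => by
      have ih := posSum_mixed hab l (v + Pi.single x 1)
      simp only [posSum, List.count_cons]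
      by_cases hx : x = a
      · subst hx
        simp [hab, Ne.symm hab] at ih ⊢
        linear_combination ih
      · by_cases hy : x = b
        · subst hy
          simp [hx, Ne.symm hx] at ih ⊢
          linear_combination ih
        · simp [hx, hy, Ne.symm hx, Ne.symm hy] at ih ⊢
          linear_combination ih

theorem good_lin (a b : α) : Good b (fun v => (v a : ℤ)) := by
  by_cases h : a = b
  · subst h
    refine H1.div 2 ?_
    exact (((h1_count a).mul (h1_count a)).sub (h1_count a)).congr fun l => by
      have := posSum_self a l 0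
      simp only [Pi.zero_apply, Nat.cast_zero, Nat.cast_ofNat] at this ⊢
      linear_combination -this
  · exact (good_wt_pow {a} (b := b) (by simpa using Ne.symm h) 1).congr fun v => by simp [wt]

theorem good_sq {a b : α} (h : a ≠ b) : Good b (fun v => (v a : ℤ) * v a) :=
  (good_wt_pow {a} (b := b) (by simpa using Ne.symm h) 2).congr fun v => by simp [wt, sq]

theorem good_cross {a b : α} (h : a ≠ b) : Good b (fun v => (v a : ℤ) * v b) := by
  refine H1.div 2 ?_
  exact ((((h1_count a).mul ((h1_count b).mul (h1_count b))).sub
    (good_sq (Ne.symm h))).sub (good_lin a b)).congr fun l => by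
      have := posSum_mixed h l 0
      simp only [Pi.zero_apply, Nat.cast_zero, Nat.cast_ofNat] at this ⊢
      linear_combination -this

theorem good_quad (a a' b : α) : Good b (fun v => (v a : ℤ) * v a') := by
  by_cases h : a = b
  · subst h
    by_cases h' : a' = a
    · subst h'
      refine H1.div 6 ?_
      exact ((((h1_count a').mul ((h1_count a').mul (h1_count a'))).const_mul 2).sub
        (((h1_count a').mul (h1_count a')).const_mul 3) |>.add (h1_count a')).congr fun l => by
          have := posSum_self_sq a' l 0
          simp only [Pi.zero_apply, Nat.cast_zero, Nat.cast_ofNat] at this ⊢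
          linear_combination -this
    · exact (good_cross h').congr fun v => mul_comm _ _
  · by_cases h' : a' = b
    · subst h'; exact good_cross h
    · by_cases haa : a = a'
      · subst haa; exact good_sq h
      · refine Good.of_mul 2 ?_
        exact ((good_wt_pow {a, a'} (b := b) (by simp [Ne.symm h, Ne.symm h']) 2).add
          ((good_sq h).const_mul (-1)) |>.add ((good_sq h').const_mul (-1))).congr fun v => by
            simp [wt, Finset.sum_pair haa]; ring

theorem two_mul_choose_two : ∀ n : ℕ, (2 : ℤ) * (n.choose 2 : ℕ) = (n : ℤ) * n - n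
  | 0 => by simp
  | n + 1 => by
      rw [Nat.choose_succ_succ', Nat.choose_one_right]
      push_cast
      linear_combination two_mul_choose_two n

theorem good_choose (a b : α) : Good b (fun v => ((v a).choose 2 : ℕ)) :=
  Good.of_mul 2 (((good_quad a a b).add ((good_lin a b).const_mul (-1))).congr fun v => by
    push_cast
    rw [two_mul_choose_two]
    ring)

end Vale.Agent.P329
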