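import Vale.Agent.P329.Cubic

/-!
Languages recognised by finite nilpotent groups of class at most four with abelian derived group,
in particular by all finite nilpotent groups of class at most three, have generalized star height
at most one.
-/

namespace Vale.Agent.P329

open Classical
open scoped commutatorElement

/-- Every fibre of `F` has generalized star height at most one. -/
def HV {α M : Type} (F : List α → M) : Prop := ∀ m, HLE (lset fun l => F l = m) 1

namespace HV

variable {α M : Type}

theorem congr {F F' : List α → M} (hF : HV F) (h : ∀ l, F l = F' l) : HV F' :=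
  (funext h : F = F') ▸ hF

theorem const (c : M) : HV (fun _ : List α => c) := fun m => HLE.const (c = m)

theorem map {N : Type} [Finite M] {F : List α → M} (hF : HV F) (φ : M → N) :
    HV (fun l => φ (F l)) := fun n => by
  refine (HLE.exists_fin fun m : {m : M // φ m = n} => hF m.1).congr fun l => ?_
  simp only [mem_lset]
  exact ⟨fun ⟨⟨m, hm⟩, h⟩ => by rw [h, hm], fun h => ⟨⟨_, h⟩, rfl⟩⟩

theorem mul [Monoid M] [Finite M] {F F' : List α → M} (h1 : HV F) (h2 : HV F') :
    HV (fun l => F l * F' l) := fun m => by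
  refine (HLE.exists_fin fun i : {i : M × M // i.1 * i.2 = m} =>
    (h1 i.1.1).and (h2 i.1.2)).congr fun l => ?_
  simp only [mem_lset]
  exact ⟨fun ⟨⟨i, hi⟩, a, b⟩ => by rw [a, b, hi], fun h => ⟨⟨(_, _), h⟩, rfl, rfl⟩⟩

theorem list_prod [Monoid M] [Finite M] {ι : Type} {F : ι → List α → M} (hF : ∀ i, HV (F i)) :
    ∀ L : List ι, HV (fun l => (L.map fun i => F i l).prod)
  | [] => const 1
  | i :: L => ((hF i).mul (list_prod hF L)).congr fun l => by simp

theorem finset_prod [CommMonoid M] [Finite M] {ι : Type} {F : ι → List α → M}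
    (hF : ∀ i, HV (F i)) (s : Finset ι) : HV (fun l => ∏ i ∈ s, F i l) :=
  (list_prod hF s.toList).congr fun l => Finset.prod_map_toList s _

theorem zpow [Group M] [Finite M] (y : M) {E : List α → ℤ} (hE : H1 E) :
    HV (fun l => y ^ E l) := fun m => by
  have : NeZero (Nat.card M) := ⟨Nat.card_pos.ne'⟩
  have key : ∀ z : ℤ, y ^ z = y ^ (z : ZMod (Nat.card M)).val := fun z => by
    rw [← zpow_natCast, zpow_eq_zpow_iff_modEq]
    refine Int.ModEq.of_dvd (Int.natCast_dvd_natCast.2 (orderOf_dvd_natCard y)) ?_
    rw [← ZMod.intCast_eq_intCast_iff]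
    simp
  refine (HLE.exists_fin fun i : {i : ZMod (Nat.card M) // y ^ i.val = m} =>
    hE (Nat.card M) i.1).congr fun l => ?_
  simp only [mem_lset]
  refine ⟨?_, fun h => ⟨⟨_, (key (E l)).symm.trans h⟩, rfl⟩⟩
  rintro ⟨⟨i, hi⟩, h⟩
  rw [key, h, hi]

end HV

section posProd

variable {α M : Type} [CommGroup M]

/-- The product of `g` (prefix letter counts) over the occurrences of `b`. -/
noncomputable def posProd (b : α) (g : (α → ℕ) → M) : (α → ℕ) → List α → M
  | _, [] => 1
  | v, x :: l => (if x = b then g v else 1) * posProd b g (v + Pi.single x 1) l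

theorem posProd_mul (b : α) (g g' : (α → ℕ) → M) : ∀ (l : List α) (v : α → ℕ),
    posProd b (fun v => g v * g' v) v l = posProd b g v l * posProd b g' v l
  | [], v => by simp [posProd]
  | x :: l, v => by
      simp only [posProd, posProd_mul b g g' l]
      rw [mul_mul_mul_comm]
      split <;> simp

theorem posProd_zpow (b : α) (y : M) (F : (α → ℕ) → ℤ) : ∀ (l : List α) (v : α → ℕ),
    posProd b (fun v => y ^ F v) v l = y ^ posSum b F v l
  | [], v => by simp [posProd, posSum]
  | x :: l, v => by
      simp only [posProd, posSum, posProd_zpow b y F l, zpow_add]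
      split <;> simp

/-- Polynomial maps of degree at most three, with coefficients in the levels `Z3` and `Z4`. -/
inductive PG (Z3 Z4 : M → Prop) : ((α → ℕ) → M) → Prop
  | const (y : M) : PG Z3 Z4 fun _ => y
  | lin (y : M) (a : α) : PG Z3 Z4 fun v => y ^ v a
  | two (z : M) (F : (α → ℕ) → ℕ) (hz : Z3 z) (hF : ∀ b, Good b fun v => (F v : ℤ))
      (hF' : ∀ a b, Good b fun v => (F v : ℤ) * (v a : ℤ)) : PG Z3 Z4 fun v => z ^ F v
  | three (z : M) (F : (α → ℕ) → ℕ) (hz : Z4 z) (hF : ∀ b, Good b fun v => (F v : ℤ)) :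
      PG Z3 Z4 fun v => z ^ F v
  | mul {g g' : (α → ℕ) → M} (h : PG Z3 Z4 g) (h' : PG Z3 Z4 g') :
      PG Z3 Z4 fun v => g v * g' v

variable {Z3 Z4 : M → Prop}

theorem PG.congr {g g' : (α → ℕ) → M} (h : PG Z3 Z4 g) (e : ∀ v, g v = g' v) : PG Z3 Z4 g' :=
  (funext e : g = g') ▸ h

theorem PG.hv [Finite α] [Finite M] {g : (α → ℕ) → M} (h : PG Z3 Z4 g) (b : α) :
    HV (posProd b g 0) := by
  induction h with
  | const y =>
    exact (HV.zpow y (good_const b 1)).congr fun l => by rw [← posProd_zpow]; simp
  | lin y a =>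
    exact (HV.zpow y (good_lin a b)).congr fun l => by rw [← posProd_zpow]; simp
  | two z F _ hF _ =>
    exact (HV.zpow z (hF b)).congr fun l => by rw [← posProd_zpow]; simp
  | three z F _ hF =>
    exact (HV.zpow z (hF b)).congr fun l => by rw [← posProd_zpow]; simp
  | mul _ _ ih ih' => exact (ih.mul ih').congr fun l => (posProd_mul b _ _ l 0).symm

theorem PG.conj [Finite α] {g : (α → ℕ) → M} (h : PG Z3 Z4 g) (φ : M →* M) (a : α)
    (h3 : ∀ y, Z3 (φ y)) (h4 : ∀ z, Z3 z → Z4 (φ z)) (h5 : ∀ z, Z4 z → φ z = 1) :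
    PG Z3 Z4 fun v => g v * φ (g v) ^ v a * φ (φ (g v)) ^ (v a).choose 2 := by
  induction h with
  | const y =>
    exact ((PG.const y).mul (PG.lin (φ y) a)).mul (PG.two (φ (φ y)) (fun v => (v a).choose 2)
      (h3 _) (fun b => good_choose a b) (fun c b => good_choose_mul a c b))
  | lin y a' =>
    exact (((PG.lin y a').mul (PG.two (φ y) (fun v => v a' * v a) (h3 y)
      (fun b => (good_quad a' a b).congr fun v => by push_cast; ring)
      (fun c b => (good_cubic a' a c b).congr fun v => by push_cast; ring))).mul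
      (PG.three (φ (φ y)) (fun v => v a' * (v a).choose 2) (h4 _ (h3 y))
        (fun b => (good_choose_mul a a' b).congr fun v => by push_cast; ring))).congr fun v => by
      simp only [map_pow, ← pow_mul]
  | two z F hz hF hF' =>
    exact ((PG.two z F hz hF hF').mul (PG.three (φ z) (fun v => F v * v a) (h4 z hz)
      (fun b => (hF' a b).congr fun v => by push_cast; ring))).congr fun v => by
      simp only [map_pow, h5 _ (h4 z hz), one_pow, mul_one, ← pow_mul]
  | three z F hz hF =>
    exact (PG.three z F hz hF).congr fun v => by simp [h5 z hz]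
  | mul _ _ ih ih' =>
    exact (ih.mul ih').congr fun v => by
      simp only [map_mul, mul_pow, mul_assoc, mul_left_comm, mul_comm]

end posProd

theorem shuffle_five {M : Type} [CommMonoid M] (a y b c d : M) :
    a * y * (b * c) * d = y * (c * a) * (b * d) := by ac_rfl

theorem shuffle_six {M : Type} [CommMonoid M] (A B C D E c : M) :
    A * B * C * (D * E) * c = A * c * (D * B) * (E * C) := by ac_rfl

theorem hle_class_four_aux {α : Type} [Finite α] {G : Type} [Group G] [Finite G]
    (hG : Subgroup.lowerCentralSeries (⊤ : Subgroup G) 4 = ⊥)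
    (habel : ∀ x ∈ commutator G, ∀ y ∈ commutator G, x * y = y * x) (f : α → G) :
    HV (fun l : List α => (l.map f).prod) := by
  have : Fintype α := Fintype.ofFinite α
  let inst : CommGroup (commutator G) :=
    { (inferInstance : Group (commutator G)) with
      mul_comm := fun a b => Subtype.ext (habel a a.2 b b.2) }
  have hmem : ∀ x y : G, ⁅x, y⁆ ∈ commutator G := fun x y =>
    Subgroup.commutator_mem_commutator (Subgroup.mem_top _) (Subgroup.mem_top _)
  have hstep : ∀ (i : ℕ) (x y : G), y ∈ Subgroup.lowerCentralSeries (⊤ : Subgroup G) i →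
      ⁅x, y⁆ ∈ Subgroup.lowerCentralSeries (⊤ : Subgroup G) (i + 1) := fun i x y hy => by
    rw [← commutatorElement_inv]
    exact inv_mem (Subgroup.commutator_mem_commutator hy (Subgroup.mem_top x))
  have hone : ∀ y : commutator G, (y : G) ∈ Subgroup.lowerCentralSeries (⊤ : Subgroup G) 1 :=
    fun y => by rw [Subgroup.top_lowerCentralSeries_one]; exact y.2
  let Z3 : commutator G → Prop := fun z =>
    (z : G) ∈ Subgroup.lowerCentralSeries (⊤ : Subgroup G) 2
  let Z4 : commutator G → Prop := fun z =>
    (z : G) ∈ Subgroup.lowerCentralSeries (⊤ : Subgroup G) 3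
  let φ : G → (commutator G →* commutator G) := fun x =>
    { toFun := fun y => ⟨⁅x, (y : G)⁆, hmem x y⟩
      map_one' := Subtype.ext (by simp)
      map_mul' := fun y y' => Subtype.ext <| by
        change ⁅x, (y : G) * y'⁆ = ⁅x, (y : G)⁆ * ⁅x, (y' : G)⁆
        have e : ⁅x, (y : G) * y'⁆ = ⁅x, (y : G)⁆ * (y * ⁅x, (y' : G)⁆ * (y : G)⁻¹) := by
          simp [commutatorElement_def, mul_assoc]
        rw [e, habel y y.2 _ (hmem x y'), mul_inv_cancel_right] }
  have h3 : ∀ x y, Z3 (φ x y) := fun x y => hstep 1 x y (hone y)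
  have h4 : ∀ x z, Z3 z → Z4 (φ x z) := fun x z hz => hstep 2 x z hz
  have h5 : ∀ x z, Z4 z → φ x z = 1 := fun x z hz => Subtype.ext <| by
    have := hstep 3 x z hz
    rw [hG, Subgroup.mem_bot] at this
    exact this
  have hd3 : ∀ x y, φ x (φ x (φ x y)) = 1 := fun x y => h5 x _ (h4 x _ (h3 x y))
  have hconj : ∀ (x : G) (k : ℕ) (y : commutator G), x ^ k * (y : G) =
      ((y * φ x y ^ k * φ x (φ x y) ^ k.choose 2 : commutator G) : G) * x ^ k := by
    intro x k
    induction k with
    | zero => intro y; simp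
    | succ k ih =>
      intro y
      have e : x * (y : G) = ((φ x y * y : commutator G) : G) * x := by
        simp [φ, commutatorElement_def, mul_assoc]
      rw [pow_succ, mul_assoc, e, ← mul_assoc, ih, mul_assoc]
      congr 2
      have e2 : (k + 1).choose 2 = k + k.choose 2 := by
        rw [Nat.choose_succ_succ' k 1, Nat.choose_one_right]
      rw [map_mul, map_mul, hd3, one_mul, mul_pow, e2, pow_add, pow_add, pow_one]
      exact shuffle_five _ _ _ _ _
  have hcpow : ∀ (y x : G) (k : ℕ), ⁅y ^ k, x⁆ =
      ((⟨⁅y, x⁆, hmem y x⟩ ^ k * φ y ⟨⁅y, x⁆, hmem y x⟩ ^ k.choose 2 *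
        φ y (φ y ⟨⁅y, x⁆, hmem y x⟩) ^ k.choose 3 : commutator G) : G) := by
    intro y x k
    induction k with
    | zero => simp
    | succ k ih =>
      set c : commutator G := ⟨⁅y, x⁆, hmem y x⟩
      have e : ⁅y ^ (k + 1), x⁆ = (y ^ 1 * ⁅y ^ k, x⁆ * (y ^ 1)⁻¹) * ⁅y, x⁆ := by
        rw [pow_one, pow_succ']; simp [commutatorElement_def, mul_assoc]
      rw [e, ih, hconj, mul_inv_cancel_right, show ⁅y, x⁆ = (c : G) from rfl, ← Subgroup.coe_mul]
      congr 1
      have e2 : (k + 1).choose 2 = k + k.choose 2 := by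
        rw [Nat.choose_succ_succ' k 1, Nat.choose_one_right]
      have e3 : (k + 1).choose 3 = k.choose 2 + k.choose 3 := Nat.choose_succ_succ' k 2
      simp only [map_mul, map_pow, hd3, one_pow, mul_one, e2, e3, show Nat.choose 1 2 = 0 from rfl,
        pow_zero, pow_one, pow_add, pow_succ c k]
      exact shuffle_six _ _ _ _ _ _
  let sL : List α → (α → ℕ) → G := fun L v => (L.map fun a => f a ^ v a).prod
  have hcons : ∀ a L v, sL (a :: L) v = f a ^ v a * sL L v := fun a L v => by simp [sL]
  -- the commutator of a sorted product with a fixed element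
  have h1 : ∀ (L : List α) (x : G), ∃ g : (α → ℕ) → commutator G, PG Z3 Z4 g ∧
      ∀ v, (g v : G) = ⁅sL L v, x⁆ := by
    intro L x
    induction L with
    | nil => exact ⟨fun _ => 1, PG.const 1, fun v => by simp [sL]⟩
    | cons a L ih =>
      obtain ⟨g, hg, hgv⟩ := ih
      let c : commutator G := ⟨⁅f a, x⁆, hmem _ _⟩
      refine ⟨_, (hg.conj (φ (f a)) a (h3 _) (h4 _) (h5 _)).mul (((PG.lin c a).mul
        (PG.two (φ (f a) c) (fun v => (v a).choose 2) (h3 _ c) (fun b => good_choose a b)
          (fun c b => good_choose_mul a c b))).mul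
        (PG.three (φ (f a) (φ (f a) c)) (fun v => (v a).choose 3) (h4 _ _ (h3 _ c))
          (fun b => good_choose3 a b))), fun v => ?_⟩
      have e : ⁅f a ^ v a * sL L v, x⁆ =
          (f a ^ v a * ⁅sL L v, x⁆ * (f a ^ v a)⁻¹) * ⁅f a ^ v a, x⁆ := by
        simp [commutatorElement_def, mul_assoc]
      rw [hcons, e, ← hgv, hconj, mul_inv_cancel_right, hcpow, Subgroup.coe_mul]
  -- moving a letter into a sorted product
  have h2 : ∀ (L : List α), L.Nodup → ∀ b ∈ L, ∃ g : (α → ℕ) → commutator G, PG Z3 Z4 g ∧
      ∀ v, sL L v * f b = (g v : G) * sL L (v + Pi.single b 1) := by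
    intro L
    induction L with
    | nil => simp
    | cons a L ih =>
      intro hnd b hb
      rw [List.nodup_cons] at hnd
      by_cases hab : b = a
      · subst hab
        obtain ⟨g, hg, hgv⟩ := h1 L (f b)
        refine ⟨_, hg.conj (φ (f b)) b (h3 _) (h4 _) (h5 _), fun v => ?_⟩
        have hs : sL L (v + Pi.single b 1) = sL L v := by
          simp only [sL]
          congr 1
          refine List.map_congr_left fun c hcL => ?_
          have : c ≠ b := fun h => hnd.1 (h ▸ hcL)
          simp [this]
        have e : sL L v * f b = (g v : G) * (f b * sL L v) := by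
          rw [hgv]; simp [commutatorElement_def, mul_assoc]
        rw [hcons, hcons, hs, mul_assoc, e, ← mul_assoc, hconj]
        simp [pow_succ, mul_assoc]
      · obtain ⟨g, hg, hgv⟩ := ih hnd.2 b (by simpa [hab] using hb)
        refine ⟨_, hg.conj (φ (f a)) a (h3 _) (h4 _) (h5 _), fun v => ?_⟩
        rw [hcons, hcons, mul_assoc, hgv, ← mul_assoc, hconj]
        simp [Ne.symm hab, mul_assoc]
  set L := (Finset.univ : Finset α).toList with hL
  choose g hg hgv using fun b : α => h2 L (Finset.nodup_toList _) b (by simp [hL])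
  have hkey : ∀ (l : List α) (v : α → ℕ), sL L v * (l.map f).prod =
      ((∏ b, posProd b (g b) v l : commutator G) : G) * sL L (v + fun a => l.count a) := by
    intro l
    induction l with
    | nil =>
      intro v
      have : (v + fun a => ([] : List α).count a) = v := by ext a; simp
      rw [this]
      simp [posProd]
    | cons x l ih =>
      intro v
      have hv : (v + fun a => (x :: l).count a) = (v + Pi.single x 1) + fun a => l.count a := by
        ext a
        by_cases ha : a = x
        · subst ha; simp; ring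
        · simp [ha, Ne.symm ha]
      have hp : (∏ b, posProd b (g b) v (x :: l) : commutator G) =
          g x v * ∏ b, posProd b (g b) (v + Pi.single x 1) l := by
        simp only [posProd, Finset.prod_mul_distrib, Finset.prod_ite_eq, Finset.mem_univ, if_true]
      rw [List.map_cons, List.prod_cons, ← mul_assoc, hgv, mul_assoc, ih, hp, hv, Subgroup.coe_mul,
        mul_assoc]
  refine (((HV.finset_prod (fun b => (hg b).hv b) Finset.univ).map
    (fun y : commutator G => (y : G))).mul
    (HV.list_prod (fun a => HV.zpow (f a) (h1_count a)) L)).congr fun l => ?_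
  have := hkey l 0
  simp only [sL, zero_add, Pi.zero_apply, pow_zero] at this
  rw [show (L.map fun _ => (1 : G)).prod = 1 by simp, one_mul] at this
  simp [this]

theorem hle_class_four {α : Type} [Finite α] {G : Type} [Group G] [Finite G]
    (hG : Subgroup.lowerCentralSeries (⊤ : Subgroup G) 4 = ⊥)
    (habel : ∀ x ∈ commutator G, ∀ y ∈ commutator G, x * y = y * x) (f : α → G) (S : Set G) :
    HLE (lset fun w => (w.map f).prod ∈ S) 1 := by
  refine (HLE.exists_fin fun s : S => hle_class_four_aux hG habel f s.1).congr fun w => ?_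
  simp only [mem_lset]
  exact ⟨fun ⟨s, h⟩ => h ▸ s.2, fun h => ⟨⟨_, h⟩, rfl⟩⟩

/-- The derived group and the second term of the series commute in class four. -/
theorem comm_one_two {G : Type} [Group G]
    (hG : Subgroup.lowerCentralSeries (⊤ : Subgroup G) 4 = ⊥) :
    ∀ x ∈ Subgroup.lowerCentralSeries (⊤ : Subgroup G) 1,
      ∀ y ∈ Subgroup.lowerCentralSeries (⊤ : Subgroup G) 2, x * y = y * x := by
  set L := Subgroup.lowerCentralSeries (⊤ : Subgroup G)
  have h4 : ⁅L 3, (⊤ : Subgroup G)⁆ = ⊥ := hG
  have h1 : ⁅⁅(⊤ : Subgroup G), (⊤ : Subgroup G)⁆, L 2⁆ = ⊥ :=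
    Subgroup.commutator_commutator_eq_bot_of_rotate
      (by rw [Subgroup.commutator_comm ⊤ (L 2)]; exact h4) h4
  intro x hx y hy
  rw [← commutatorElement_eq_one_iff_mul_comm, ← Subgroup.mem_bot, ← h1]
  exact Subgroup.commutator_mem_commutator hx hy

/-- Class at most three: the derived group is abelian. -/
theorem abelian_of_class_three {G : Type} [Group G]
    (hG : Subgroup.lowerCentralSeries (⊤ : Subgroup G) 3 = ⊥) :
    Subgroup.lowerCentralSeries (⊤ : Subgroup G) 4 = ⊥ ∧
      ∀ x ∈ commutator G, ∀ y ∈ commutator G, x * y = y * x := by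
  set L := Subgroup.lowerCentralSeries (⊤ : Subgroup G)
  have h3 : ⁅L 2, (⊤ : Subgroup G)⁆ = ⊥ := hG
  have h4 : L 4 = ⊥ := le_bot_iff.1 (hG ▸ Subgroup.lowerCentralSeries_antitone _ (by norm_num))
  refine ⟨h4, fun x hx y hy => ?_⟩
  have h1 : ⁅⁅(⊤ : Subgroup G), (⊤ : Subgroup G)⁆, L 1⁆ = ⊥ :=
    Subgroup.commutator_commutator_eq_bot_of_rotate
      (by rw [Subgroup.commutator_comm ⊤ (L 1)]; exact h3) h3
  rw [← commutatorElement_eq_one_iff_mul_comm, ← Subgroup.mem_bot, ← h1]
  exact Subgroup.commutator_mem_commutator hx (by simp only [L, Subgroup.top_lowerCentralSeries_one]; exact hy)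

theorem abelian_of_two_generated {G : Type} [Group G]
    (hG : Subgroup.lowerCentralSeries (⊤ : Subgroup G) 4 = ⊥) (a b : G)
    (hgen : Subgroup.closure ({a, b} : Set G) = ⊤) :
    ∀ x ∈ commutator G, ∀ y ∈ commutator G, x * y = y * x := by
  set c := ⁅a, b⁆
  set N := Subgroup.normalClosure ({c} : Set G)
  have hcN : c ∈ N := Subgroup.subset_normalClosure rfl
  -- the quotient by the normal closure is commutative
  have hab : ∀ p q : G ⧸ N, p * q = q * p := by
    have htop : Subgroup.closure ((QuotientGroup.mk' N) '' ({a, b} : Set G)) = ⊤ := by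
      rw [← MonoidHom.map_closure, hgen,
        Subgroup.map_top_of_surjective _ (QuotientGroup.mk'_surjective N)]
    have hk : QuotientGroup.mk' N a * QuotientGroup.mk' N b =
        QuotientGroup.mk' N b * QuotientGroup.mk' N a := by
      rw [← commutatorElement_eq_one_iff_mul_comm, ← map_commutatorElement]
      exact (QuotientGroup.eq_one_iff _).2 hcN
    intro p q
    have hp : p ∈ Subgroup.closure ((QuotientGroup.mk' N) '' ({a, b} : Set G)) := by
      rw [htop]; exact Subgroup.mem_top _
    have hq : q ∈ Subgroup.closure ((QuotientGroup.mk' N) '' ({a, b} : Set G)) := by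
      rw [htop]; exact Subgroup.mem_top _
    refine Subgroup.closure_induction₂ (p := fun x y _ _ => x * y = y * x) ?_ ?_ ?_ ?_ ?_ ?_ ?_
      hp hq
    · rintro _ _ ⟨u, hu, rfl⟩ ⟨v, hv, rfl⟩
      simp only [Set.mem_insert_iff, Set.mem_singleton_iff] at hu hv
      rcases hu with rfl | rfl <;> rcases hv with rfl | rfl <;>
        first | rfl | exact hk | exact hk.symm
    · intro x _; rw [one_mul, mul_one]
    · intro x _; rw [one_mul, mul_one]
    · intro x y z _ _ _ h1 h2; exact Commute.mul_left h1 h2
    · intro y z x _ _ _ h1 h2; exact Commute.mul_right h1 h2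
    · intro x y _ _ h; exact Commute.inv_left h
    · intro x y _ _ h; exact Commute.inv_right h
  have hle : commutator G ≤ N := by
    rw [commutator_eq_closure, Subgroup.closure_le]
    rintro _ ⟨p, q, rfl⟩
    rw [SetLike.mem_coe, ← QuotientGroup.eq_one_iff, ← QuotientGroup.mk'_apply,
      map_commutatorElement, commutatorElement_eq_one_iff_mul_comm]
    exact hab _ _
  have hc1 : c ∈ Subgroup.lowerCentralSeries (⊤ : Subgroup G) 1 :=
    Subgroup.commutator_mem_commutator (Subgroup.mem_top a) (Subgroup.mem_top b)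
  -- the conjugates of `c` commute with each other
  have hcc : ∀ g : G, Commute (g * c * g⁻¹) c := by
    intro g
    have h2 : ⁅g, c⁆ ∈ Subgroup.lowerCentralSeries (⊤ : Subgroup G) 2 := by
      rw [← commutatorElement_inv]
      exact inv_mem (Subgroup.commutator_mem_commutator hc1 (Subgroup.mem_top g))
    have e : g * c * g⁻¹ = ⁅g, c⁆ * c := by simp [commutatorElement_def, mul_assoc]
    rw [e]
    exact Commute.mul_left (comm_one_two hG c hc1 _ h2).symm (Commute.refl c)
  intro x hx y hy
  have hx' : x ∈ Subgroup.closure (Group.conjugatesOfSet ({c} : Set G)) := hle hx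
  have hy' : y ∈ Subgroup.closure (Group.conjugatesOfSet ({c} : Set G)) := hle hy
  refine Subgroup.closure_induction₂ (p := fun x y _ _ => x * y = y * x) ?_ ?_ ?_ ?_ ?_ ?_ ?_
    hx' hy'
  · intro u v hu hv
    rw [Group.mem_conjugatesOfSet_iff] at hu hv
    obtain ⟨_, rfl, hu⟩ := hu
    obtain ⟨_, rfl, hv⟩ := hv
    obtain ⟨g, rfl⟩ := isConj_iff.1 hu
    obtain ⟨h, rfl⟩ := isConj_iff.1 hv
    have := (hcc (h⁻¹ * g)).map (MulAut.conj h).toMonoidHom
    simp only [MulEquiv.coe_toMonoidHom, MulAut.conj_apply] at this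
    simpa [mul_assoc] using this.eq
  · intro x _; rw [one_mul, mul_one]
  · intro x _; rw [one_mul, mul_one]
  · intro x y z _ _ _ h1 h2; exact Commute.mul_left h1 h2
  · intro y z x _ _ _ h1 h2; exact Commute.mul_right h1 h2
  · intro x y _ _ h; exact Commute.inv_left h
  · intro x y _ _ h; exact Commute.inv_right h

theorem hle_class_four_two_letters {G : Type} [Group G] [Finite G]
    (hG : Subgroup.lowerCentralSeries (⊤ : Subgroup G) 4 = ⊥) (f : Bool → G) (S : Set G) :
    HLE (lset fun w => (w.map f).prod ∈ S) 1 := by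
  set H := Subgroup.closure ({f false, f true} : Set G) with hH
  let f' : Bool → H := fun i => ⟨f i, Subgroup.subset_closure (by cases i <;> simp)⟩
  have hmap : ∀ n, (Subgroup.lowerCentralSeries (⊤ : Subgroup H) n).map H.subtype ≤
      Subgroup.lowerCentralSeries (⊤ : Subgroup G) n := by
    intro n
    induction n with
    | zero => exact le_top
    | succ n ih =>
      rw [Subgroup.lowerCentralSeries_succ, Subgroup.lowerCentralSeries_succ,
        Subgroup.map_commutator]
      exact Subgroup.commutator_mono ih le_top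
  have hH4 : Subgroup.lowerCentralSeries (⊤ : Subgroup H) 4 = ⊥ := by
    rw [← Subgroup.map_eq_bot_iff_of_injective _ H.subtype_injective]
    exact le_bot_iff.1 (hG ▸ hmap 4)
  have hgen : Subgroup.closure ({f' false, f' true} : Set H) = ⊤ := by
    apply Subgroup.map_injective H.subtype_injective
    rw [MonoidHom.map_closure, ← MonoidHom.range_eq_map, Subgroup.range_subtype, Set.image_pair]
    rfl
  refine (hle_class_four hH4 (abelian_of_two_generated hH4 _ _ hgen) f'
    (H.subtype ⁻¹' S)).congr fun w => ?_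
  simp [mem_lset, map_list_prod, List.map_map, f', Function.comp_def]

end Vale.Agent.P329
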