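import Vale.Agent.P329.Moments

/-!
Occurrence counts for weights in `{-1, 0, 1}` modulo `m`, and the degree three moments.
-/

namespace Vale.Agent.P329

open Classical

variable {α : Type} {m : ℕ}

/-- The integer total of the weights along a word. -/
def disp (wi : α → ℤ) (u : List α) : ℤ := (u.map wi).sum

theorem disp_rep (wi : α → ℤ) (u : List α) : ∀ i : ℕ,
    disp wi (EvAut.rep u i) = (i : ℤ) * disp wi u
  | 0 => by simp [EvAut.rep, disp]
  | i + 1 => by
      have := disp_rep wi u i
      simp [EvAut.rep, disp] at this ⊢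
      rw [this]; ring

theorem disp_cast (wi : α → ℤ) : ∀ u : List α,
    ((disp wi u : ℤ) : ZMod m) = (u.map fun a => ((wi a : ℤ) : ZMod m)).sum
  | [] => by simp [disp]
  | x :: u => by
      have := disp_cast wi u
      simp [disp] at this ⊢
      rw [this]

variable {P : Option α → α → Prop} {wi : α → ℤ}

theorem wautpm_cnt (hm : 2 ≤ m) (hw : ∀ a, |wi a| ≤ 1) (hP : ∀ f y, P f y → wi y = 0) :
    ∀ (u : List α) (q : ZMod m × Option α),
      (waut (fun a => ((wi a : ℤ) : ZMod m)) P).cnt q u = 0 →
      (q.1 ≠ 0 → 0 < (q.1.val : ℤ) + disp wi u ∧ (q.1.val : ℤ) + disp wi u < m) ∧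
      (q.1 = 0 → |disp wi u| < m)
  | [], q, _ => by
      have : NeZero m := ⟨by omega⟩
      have h1 := ZMod.val_lt q.1
      refine ⟨fun h => ?_, fun _ => by simp [disp]; omega⟩
      have : 0 < q.1.val := Nat.pos_of_ne_zero fun e => h ((ZMod.val_eq_zero q.1).1 e)
      simp only [disp, List.map_nil, List.sum_nil, add_zero]
      exact ⟨by exact_mod_cast this, by exact_mod_cast h1⟩
  | x :: u, q, hc => by
      have : NeZero m := ⟨by omega⟩
      have : Fact (1 < m) := ⟨hm⟩
      simp only [EvAut.cnt, Nat.add_eq_zero_iff] at hc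
      have ih := wautpm_cnt hm hw hP u _ hc.2
      have h1 : ((waut (fun a => ((wi a : ℤ) : ZMod m)) P).step q x).1 =
          q.1 + ((wi x : ℤ) : ZMod m) := by
        simp only [waut, wstep]; split <;> simp [*]
      rw [h1] at ih
      have hd : disp wi (x :: u) = wi x + disp wi u := by simp [disp]
      rw [hd]
      by_cases hx : wi x = 0
      · simpa [hx] using ih
      · have hne : q.1 + ((wi x : ℤ) : ZMod m) ≠ 0 := by
          intro h
          have := hc.1
          simp [waut, h, fun f => mt (hP f x) hx] at this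
        obtain ⟨ih1, -⟩ := ih
        have hb := ih1 hne
        have hl := ZMod.val_lt q.1
        have hv0 : q.1 ≠ 0 → q.1.val ≠ 0 := fun h e => h ((ZMod.val_eq_zero q.1).1 e)
        have hcast : (((q.1.val : ℤ) + wi x : ℤ) : ZMod m) = q.1 + ((wi x : ℤ) : ZMod m) := by
          push_cast; rw [ZMod.natCast_zmod_val]
        have hmod : ((q.1 + ((wi x : ℤ) : ZMod m)).val : ℤ) = ((q.1.val : ℤ) + wi x) % m := by
          rw [← hcast, ZMod.val_intCast]
        rw [hmod] at hb
        have hw' := abs_le.1 (hw x)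
        refine ⟨fun h => ?_, fun h => ?_⟩
        · have := hv0 h
          have hz : ((q.1.val : ℤ) + wi x) ≠ m := by
            intro e
            apply hne
            rw [← hcast, e]; simp
          rw [Int.emod_eq_of_lt (by omega) (by omega)] at hb
          omega
        · have hq : q.1.val = 0 := by rw [h, ZMod.val_zero]
          rw [hq] at hb
          rcases (show wi x = 1 ∨ wi x = -1 by omega) with e | e
          · rw [e, Int.emod_eq_of_lt (by omega) (by omega)] at hb
            rw [e, abs_lt]; omega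
          · rw [e] at hb
            have : ((0 : ℤ) + -1) % (m : ℤ) = m - 1 := by
              rw [show (0 : ℤ) + -1 = (m - 1) + (m : ℤ) * (-1) by ring, Int.add_mul_emod_self_left,
                Int.emod_eq_of_lt (by omega) (by omega)]
            simp only [Nat.cast_zero, this] at hb
            rw [e, abs_lt]; omega

theorem wautpm_counterFree (hm : 2 ≤ m) (hw : ∀ a, |wi a| ≤ 1)
    (hP : ∀ f y, P f y → wi y = 0) : (waut (fun a => ((wi a : ℤ) : ZMod m)) P).CounterFree := by
  intro u x k hc hr
  set w : α → ZMod m := fun a => ((wi a : ℤ) : ZMod m) with hwd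
  have : NeZero m := ⟨by omega⟩
  have hN := wautpm_cnt hm hw hP _ x hc
  have hs := waut_run_fst (w := w) (P := P) (EvAut.rep u (k + 1)) x
  rw [hr, left_eq_add, ← disp_cast, ZMod.intCast_zmod_eq_zero_iff_dvd] at hs
  have hlt : |disp wi (EvAut.rep u (k + 1))| < m := by
    by_cases h : x.1 = 0
    · exact hN.2 h
    · have := hN.1 h
      have := ZMod.val_lt x.1
      rw [abs_lt]; omega
  have h0 : disp wi (EvAut.rep u (k + 1)) = 0 := Int.eq_zero_of_abs_lt_dvd hs hlt
  rw [disp_rep, mul_eq_zero] at h0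
  have hS : (u.map w).sum = 0 := by
    rw [← disp_cast, h0.resolve_left (by omega), Int.cast_zero]
  rcases waut_dich (w := w) (P := P) u x.1 with hl | ⟨c, hc'⟩
  · have := hl x.2
    rw [hS, add_zero] at this
    exact this
  · have h1 : c.1 = x.1 := by
      rw [← hc' x.2, waut_run_fst, hS, add_zero]
    have hcc : ∀ i, (waut w P).run c (EvAut.rep u i) = c := by
      intro i
      induction i with
      | zero => rfl
      | succ i ih =>
        have : (waut w P).run c u = c := by
          have := hc' c.2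
          rw [← h1] at this
          exact this
        rw [EvAut.rep, EvAut.run_append, this, ih]
    have hxc : (waut w P).run x u = c := hc' x.2
    rw [EvAut.rep, EvAut.run_append, hxc, hcc] at hr
    rw [hxc, hr]

variable [Finite α]

theorem h1_occpm (hm : 2 ≤ m) (hw : ∀ a, |wi a| ≤ 1) {b : α} (hb : wi b = 0) (r : ZMod m) :
    H1 (occ (fun a => ((wi a : ℤ) : ZMod m)) b r) := by
  have : NeZero m := ⟨by omega⟩
  exact (((waut (fun a => ((wi a : ℤ) : ZMod m)) fun _ _ => False).h1_cnt
      (wautpm_counterFree hm hw fun _ _ h => h.elim) (r, none)).sub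
    ((waut (fun a => ((wi a : ℤ) : ZMod m)) fun _ x => x = b).h1_cnt
      (wautpm_counterFree hm hw fun _ _ h => h ▸ hb) (r, none))).congr
      fun l => (occ_eq_of_weight_zero (fun a => ((wi a : ℤ) : ZMod m)) (b := b) (by simp [hb])
        l (r, none)).symm

theorem H1.comp {F : List α → ℤ} (hF : H1 F) (φ : ℤ → ℤ)
    (hφ : ∀ N : ℕ, 0 < N → ∃ M : ℕ, 0 < M ∧ ∀ x y : ℤ, (M : ℤ) ∣ x - y → (N : ℤ) ∣ φ x - φ y) :
    H1 (fun l => φ (F l)) := by
  intro N _ j
  obtain ⟨M, hM, h⟩ := hφ N (Nat.pos_of_ne_zero (NeZero.ne N))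
  have : NeZero M := ⟨by omega⟩
  refine (HLE.exists_fin fun i : {i : ZMod M // ((φ (i.val : ℤ) : ℤ) : ZMod N) = j} =>
    hF M i.1).congr fun l => ?_
  have key : ((φ (F l) : ℤ) : ZMod N) = ((φ ((F l : ZMod M).val : ℤ) : ℤ) : ZMod N) := by
    refine ((ZMod.intCast_eq_intCast_iff_dvd_sub _ _ _).2 (h _ _ ?_)).symm
    rw [← ZMod.intCast_eq_intCast_iff_dvd_sub]
    simp
  simp only [mem_lset]
  refine ⟨?_, fun hj => ⟨⟨_, key.symm.trans hj⟩, rfl⟩⟩
  rintro ⟨⟨i, hi⟩, e⟩
  rw [key, e, hi]

variable [Fintype α]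

/-- A linear form in the letter counts. -/
def lin (wi : α → ℤ) (v : α → ℕ) : ℤ := ∑ a, wi a * (v a : ℤ)

omit [Finite α] in
theorem lin_step (wi : α → ℤ) (v : α → ℕ) (x : α) :
    lin wi (v + Pi.single x 1) = lin wi v + wi x := by
  simp [lin, mul_add, Finset.sum_add_distrib, Pi.single_apply]

omit [Finite α] in
theorem posSum_eq_occ' [NeZero m] (φ : ℤ → ℤ) (b : α) (N : ℕ)
    (hφ : ∀ x y : ℤ, (x : ZMod m) = y → (φ x : ZMod N) = φ y) : ∀ (l : List α) (v : α → ℕ),
    (posSum b (fun v => φ (lin wi v)) v l : ZMod N) =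
      ((∑ r : ZMod m, φ r.val *
        occ (fun a => ((wi a : ℤ) : ZMod m)) b (((lin wi v : ℤ) : ZMod m) - r) l : ℤ) : ZMod N)
  | [], v => by simp [posSum, occ]
  | x :: l, v => by
      simp only [posSum, occ, Int.cast_add, posSum_eq_occ' φ b N hφ l, mul_add,
        Finset.sum_add_distrib]
      congr 1
      · by_cases hx : x = b
        · simp only [hx, if_true, and_true, mul_ite, mul_one, mul_zero, sub_eq_zero]
          rw [Finset.sum_ite_eq, if_pos (Finset.mem_univ _)]
          exact hφ _ _ (by simp)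
        · simp [hx]
      · rw [lin_step]
        push_cast
        refine Finset.sum_congr rfl fun r _ => ?_
        congr 3
        ring

omit [Finite α] in
theorem pow_cast_congr (i N M : ℕ) (hNM : N ∣ M) (x y : ℤ) (h : (x : ZMod M) = y) :
    (((x ^ i : ℤ)) : ZMod N) = ((y ^ i : ℤ) : ZMod N) := by
  rw [ZMod.intCast_eq_intCast_iff_dvd_sub] at h ⊢
  exact ((Int.natCast_dvd_natCast.2 hNM).trans h).trans (sub_dvd_pow_sub_pow y x i)

theorem good_lin_pow (hw : ∀ a, |wi a| ≤ 1) {b : α} (hb : wi b = 0) (i : ℕ) :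
    Good b (fun v => lin wi v ^ i) := by
  intro N _ j
  have : NeZero (2 * N) := ⟨by have := NeZero.ne N; omega⟩
  have hm : 2 ≤ 2 * N := by have := NeZero.ne N; omega
  refine ((H1.sum Finset.univ fun (r : ZMod (2 * N)) _ =>
    (h1_occpm (wi := wi) (b := b) hm hw hb (0 - r)).const_mul ((r.val : ℤ) ^ i)) N j).congr
      fun l => ?_
  simp only [mem_lset]
  rw [posSum_eq_occ' (m := 2 * N) (fun z => z ^ i) b N
    (pow_cast_congr i N (2 * N) (Dvd.intro_left 2 rfl)) l 0]
  simp [lin]

/-- The number of integers below `W` congruent to `r`, up to an additive constant. -/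
def below (m : ℕ) (r W : ℤ) : ℤ := (W - 1 - r) / (m : ℤ)

omit [Finite α] [Fintype α] in
theorem below_succ (hm : 2 ≤ m) (r W : ℤ) :
    below m r (W + 1) - below m r W = if ((W - r : ℤ) : ZMod m) = 0 then 1 else 0 := by
  simp only [below, ZMod.intCast_zmod_eq_zero_iff_dvd]
  have hm0 : (0 : ℤ) < m := by omega
  have e := Int.emod_add_mul_ediv (W - 1 - r) (m : ℤ)
  have h0 := Int.emod_nonneg (W - 1 - r) hm0.ne'
  have h1 := Int.emod_lt_of_pos (W - 1 - r) hm0
  set q := (W - 1 - r) / (m : ℤ)
  set t := (W - 1 - r) % (m : ℤ)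
  rw [show W + 1 - 1 - r = (t + 1) + (m : ℤ) * q by omega, Int.add_mul_ediv_left _ _ hm0.ne']
  have hiff : ((m : ℤ) ∣ W - r) ↔ t + 1 = m := by
    rw [show W - r = (t + 1) + (m : ℤ) * q by omega, dvd_add_left (dvd_mul_right _ _)]
    exact ⟨fun hd => le_antisymm (by omega) (Int.le_of_dvd (by omega) hd), fun e => by rw [e]⟩
  by_cases h : t + 1 = m
  · simp [hiff, h, Int.ediv_self hm0.ne']
  · rw [Int.ediv_eq_zero_of_lt (by omega) (by omega), if_neg (mt hiff.1 h)]
    ring

omit [Finite α] [Fintype α] in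
theorem occ_flux (hm : 2 ≤ m) {a b : α} (hab : a ≠ b) (hwa : wi a = 1) (hwb : wi b = -1)
    (ho : ∀ x, x ≠ a → x ≠ b → wi x = 0) (r : ℤ) : ∀ (l : List α) (W : ℤ),
    occ (fun x => ((wi x : ℤ) : ZMod m)) a ((W - r : ℤ) : ZMod m) l -
      occ (fun x => ((wi x : ℤ) : ZMod m)) b ((W - r - 1 : ℤ) : ZMod m) l =
      below m r (W + disp wi l) - below m r W
  | [], W => by simp [occ, disp]
  | x :: l, W => by
      have ih := occ_flux hm hab hwa hwb ho r l (W + wi x)
      have hd : W + disp wi (x :: l) = W + wi x + disp wi l := by simp [disp]; ring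
      rw [hd]
      simp only [occ]
      have e1 : ((W - r : ℤ) : ZMod m) + ((wi x : ℤ) : ZMod m) = ((W + wi x - r : ℤ) : ZMod m) := by
        push_cast; ring
      have e2 : ((W - r - 1 : ℤ) : ZMod m) + ((wi x : ℤ) : ZMod m) =
          ((W + wi x - r - 1 : ℤ) : ZMod m) := by
        push_cast; ring
      rw [e1, e2]
      by_cases h1 : x = a
      · subst h1
        rw [hwa] at ih ⊢
        have := below_succ (m := m) hm r W
        simp [hab] at ih this ⊢
        linarith
      · by_cases h2 : x = b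
        · subst h2
          rw [hwb] at ih ⊢
          have := below_succ (m := m) hm r (W - 1)
          rw [sub_add_cancel, show W - 1 - r = W - r - 1 by ring,
            show W - 1 = W + -1 by ring] at this
          simp [Ne.symm hab] at ih this ⊢
          linarith
        · rw [ho x h1 h2] at ih ⊢
          simp [h1, h2] at ih ⊢
          linarith

omit [Finite α] [Fintype α] in
theorem occ_hits (hm : 2 ≤ m) {a b : α} (hab : a ≠ b) (hwa : wi a = 1) (hwb : wi b = -1)
    (ho : ∀ x, x ≠ a → x ≠ b → wi x = 0) : ∀ (l : List α) (q : ZMod m × Option α),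
    ((waut (fun x => ((wi x : ℤ) : ZMod m)) fun _ y => wi y = 0).cnt q l : ℤ) =
      occ (fun x => ((wi x : ℤ) : ZMod m)) a (q.1 + 1) l +
        occ (fun x => ((wi x : ℤ) : ZMod m)) b (q.1 - 1) l
  | [], q => by simp [occ, EvAut.cnt]
  | x :: l, q => by
      have ih := occ_hits hm hab hwa hwb ho l
        ((waut (fun x => ((wi x : ℤ) : ZMod m)) fun _ y => wi y = 0).step q x)
      have h1 : ((waut (fun x => ((wi x : ℤ) : ZMod m)) fun _ y => wi y = 0).step q x).1 =
          q.1 + ((wi x : ℤ) : ZMod m) := by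
        simp only [waut, wstep]; split <;> simp [*]
      rw [h1, add_right_comm q.1 _ 1,
        show q.1 + ((wi x : ℤ) : ZMod m) - 1 = q.1 - 1 + ((wi x : ℤ) : ZMod m) by ring] at ih
      simp only [EvAut.cnt, occ, Nat.cast_add, ih]
      by_cases ha : x = a
      · subst ha
        by_cases h : q.1 + 1 = 0 <;> simp [waut, hwa, h, hab] <;> ring
      · by_cases hb : x = b
        · subst hb
          by_cases h : q.1 + -1 = 0 <;>
            simp [waut, hwb, h, Ne.symm hab, sub_eq_add_neg] <;> ring
        · simp [waut, ho x ha hb, ha, hb]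

omit [Finite α] in
theorem disp_lin (wi : α → ℤ) : ∀ l : List α,
    disp wi l = ∑ a, wi a * (l.count a : ℤ)
  | [] => by simp [disp]
  | x :: l => by
      have := disp_lin wi l
      simp [disp] at this ⊢
      rw [this]
      simp [List.count_cons, mul_add, Finset.sum_add_distrib, add_comm, beq_iff_eq]

theorem h1_disp (wi : α → ℤ) : H1 (fun l : List α => disp wi l) :=
  (H1.sum Finset.univ fun a _ => (h1_count a).const_mul (wi a)).congr fun l => (disp_lin wi l).symm

/-- The occurrences of `b` at every residue, for weight `1` on `a` and `-1` on `b`. -/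
theorem h1_down {N : ℕ} [NeZero N] {a b : α} (hab : a ≠ b) (hwa : wi a = 1) (hwb : wi b = -1)
    (ho : ∀ x, x ≠ a → x ≠ b → wi x = 0) (r : ZMod (2 * N)) :
    H1 (occ (fun x => ((wi x : ℤ) : ZMod (2 * N))) b r) := by
  have hN := NeZero.ne N
  have : NeZero (2 * N) := ⟨by omega⟩
  have hm : 2 ≤ 2 * N := by omega
  have hw : ∀ x, |wi x| ≤ 1 := by
    intro x
    by_cases h1 : x = a
    · simp [h1, hwa]
    · by_cases h2 : x = b
      · simp [h2, hwb]
      · simp [ho x h1 h2]
  set w : α → ZMod (2 * N) := fun x => ((wi x : ℤ) : ZMod (2 * N)) with hwd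
  set D : ℤ → List α → ℤ := fun z l => occ w b (((-z : ℤ)) : ZMod (2 * N)) l with hD
  -- consecutive sums
  have hS : ∀ z : ℤ, H1 (fun l => D z l + D (z + 1) l) := by
    intro z
    have hflux : H1 (fun l : List α => below (2 * N) (z - 1) (disp wi l) -
        below (2 * N) (z - 1) 0) := by
      refine ((h1_disp wi).comp (below (2 * N) (z - 1)) ?_).sub (H1.const _)
      intro K hK
      refine ⟨2 * N * K, by positivity, ?_⟩
      rintro x y ⟨c, hc⟩
      refine ⟨c, ?_⟩
      simp only [below]
      rw [show x - 1 - (z - 1) = (y - 1 - (z - 1)) + ((2 * N : ℕ) : ℤ) * ((K : ℤ) * c) by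
        push_cast at hc ⊢; linarith, Int.add_mul_ediv_left _ _ (by omega)]
      ring
    refine (((waut w fun _ y => wi y = 0).h1_cnt (wautpm_counterFree hm hw fun _ _ h => h)
      ((((-z : ℤ)) : ZMod (2 * N)), none)).sub hflux).congr fun l => ?_
    have h1 := occ_hits (m := 2 * N) hm hab hwa hwb ho l ((((-z : ℤ)) : ZMod (2 * N)), none)
    have h2 := occ_flux (m := 2 * N) hm hab hwa hwb ho (z - 1) l 0
    simp only [zero_add] at h2
    rw [h1, ← h2, hD]
    simp only [← hwd]
    have e1 : ((0 - (z - 1) : ℤ) : ZMod (2 * N)) = ((-z : ℤ) : ZMod (2 * N)) + 1 := by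
      push_cast; ring
    have e2 : ((0 - (z - 1) - 1 : ℤ) : ZMod (2 * N)) = ((-z : ℤ) : ZMod (2 * N)) := by
      push_cast; ring
    have e3 : ((-z : ℤ) : ZMod (2 * N)) - 1 = ((-(z + 1) : ℤ) : ZMod (2 * N)) := by
      push_cast; ring
    rw [e1, e2, e3]
    ring
  -- differences at even distance
  have heven : ∀ j : ℕ, H1 (fun l => D (2 * (j : ℤ)) l - D 0 l) := by
    intro j
    induction j with
    | zero => exact (H1.const 0).congr fun l => by simp
    | succ j ih =>
      exact (ih.add ((hS (2 * (j : ℤ) + 1)).sub (hS (2 * (j : ℤ))))).congr fun l => by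
        rw [show 2 * ((j + 1 : ℕ) : ℤ) = 2 * (j : ℤ) + 1 + 1 by push_cast; ring]
        ring
  have : Fact (Nat.Prime 2) := ⟨Nat.prime_two⟩
  have hpar : ∀ (l : List α) (v : ZMod (2 * N)),
      occ (fun x => ((wi x : ℤ) : ZMod 2)) b (ZMod.castHom (dvd_mul_right 2 N) (ZMod 2) v) l =
        ∑ j ∈ Finset.range N, occ w b (v - ((2 * (j : ℤ) : ℤ) : ZMod (2 * N))) l := by
    intro l
    induction l with
    | nil => intro v; simp [occ]
    | cons x l ih =>
      intro v
      simp only [occ, Finset.sum_add_distrib]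
      congr 1
      · by_cases hx : x = b
        · simp only [hx, and_true, sub_eq_zero]
          have hv := ZMod.val_lt v
          have he : ZMod.castHom (dvd_mul_right 2 N) (ZMod 2) v = 0 ↔ 2 ∣ v.val := by
            rw [← ZMod.natCast_eq_zero_iff, ← map_natCast (ZMod.castHom (dvd_mul_right 2 N) _),
              ZMod.natCast_zmod_val]
          have hj : ∀ j ∈ Finset.range N,
              (v = ((2 * (j : ℤ) : ℤ) : ZMod (2 * N)) ↔ v.val = 2 * j) := by
            intro j hj
            rw [Finset.mem_range] at hj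
            rw [show ((2 * (j : ℤ) : ℤ) : ZMod (2 * N)) = ((2 * j : ℕ) : ZMod (2 * N)) by
              push_cast; ring]
            constructor
            · intro e; rw [e, ZMod.val_cast_of_lt (by omega)]
            · intro e; rw [← e, ZMod.natCast_zmod_val]
          by_cases h : 2 ∣ v.val
          · rw [if_pos (he.2 h), Finset.sum_eq_single (v.val / 2)]
            · rw [if_pos ((hj _ (Finset.mem_range.2 (by omega))).2 (by omega))]
            · intro j hjm hne
              rw [if_neg fun e => hne (by have := (hj j hjm).1 e; omega)]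
            · intro hn
              exact absurd (Finset.mem_range.2 (by omega)) hn
          · rw [if_neg (mt he.1 h), Finset.sum_eq_zero]
            intro j hjm
            rw [if_neg fun e => h (by have := (hj j hjm).1 e; omega)]
        · simp [hx]
      · rw [show ZMod.castHom (dvd_mul_right 2 N) (ZMod 2) v + ((wi x : ℤ) : ZMod 2) =
          ZMod.castHom (dvd_mul_right 2 N) (ZMod 2) (v + w x) by simp [hwd], ih]
        exact Finset.sum_congr rfl fun j _ => by congr 1; ring
  have hE : H1 (fun l => ∑ j ∈ Finset.range N, D (2 * (j : ℤ)) l) :=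
    (h1_occ (fun x => ((wi x : ℤ) : ZMod 2)) b 0).congr fun l => by
      have := hpar l 0
      rw [map_zero] at this
      rw [this, hD]
      simp
  have h0 : H1 (D 0) := H1.div N ((hE.sub (H1.sum (Finset.range N) fun j _ => heven j)).congr
    fun l => by rw [Finset.sum_sub_distrib]; simp)
  have hall : ∀ z : ℕ, H1 (D (z : ℤ)) := by
    intro z
    induction z with
    | zero => simpa using h0
    | succ z ih =>
      exact ((hS (z : ℤ)).sub ih).congr fun l => by push_cast; ring
  refine (hall (-r).val).congr fun l => ?_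
  simp [hD]

theorem h1_down_sum {a b : α} (hab : a ≠ b) (hwa : wi a = 1) (hwb : wi b = -1)
    (ho : ∀ x, x ≠ a → x ≠ b → wi x = 0) (i : ℕ) : Good b (fun v => lin wi v ^ i) := by
  intro N _ j
  have : NeZero (2 * N) := ⟨by have := NeZero.ne N; omega⟩
  refine ((H1.sum Finset.univ fun (r : ZMod (2 * N)) _ =>
    (h1_down (wi := wi) (N := N) hab hwa hwb ho (0 - r)).const_mul ((r.val : ℤ) ^ i)) N j).congr
      fun l => ?_
  simp only [mem_lset]
  rw [posSum_eq_occ' (m := 2 * N) (fun z => z ^ i) b N
    (pow_cast_congr i N (2 * N) (Dvd.intro_left 2 rfl)) l 0]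
  simp [lin]

end Vale.Agent.P329
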