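import Vale.Agent.P329.Basic

/-!
The direction of Schuetzenberger's theorem used here: a language recognised by a finite aperiodic
monoid has a generalized regular expression of star height `0`.  Proof by local divisors.
-/

namespace Vale.Agent.P329

section LocalDivisor

variable {M : Type} [Monoid M]

/-- The carrier of the local divisor of `M` at `c`. -/
structure LocDiv (c : M) where
  val : M
  left : ∃ v, val = c * v
  right : ∃ u, val = u * c

theorem LocDiv.ext' {c : M} {x y : LocDiv c} (h : x.val = y.val) : x = y := by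
  cases x; cases y; cases h; rfl

theorem LocDiv.left_indep {c : M} (y : LocDiv c) {u u' : M} (h : u * c = u' * c) :
    u * y.val = u' * y.val := by
  obtain ⟨v, hv⟩ := y.left
  rw [hv, ← mul_assoc, h, mul_assoc]

noncomputable instance LocDiv.instMulLD (c : M) : Mul (LocDiv c) where
  mul x y := ⟨Classical.choose x.right * y.val,
    (by
      obtain ⟨v, hv⟩ := y.left
      obtain ⟨z, hz⟩ := x.left
      refine ⟨z * v, ?_⟩
      rw [hv, ← mul_assoc, ← Classical.choose_spec x.right, hz, mul_assoc]),
    (by
      obtain ⟨u, hu⟩ := y.right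
      exact ⟨Classical.choose x.right * u, by rw [hu, mul_assoc]⟩)⟩

theorem LocDiv.mul_val {c : M} (x y : LocDiv c) {u : M} (hu : x.val = u * c) :
    (x * y).val = u * y.val :=
  LocDiv.left_indep y ((Classical.choose_spec x.right).symm.trans hu)

instance LocDiv.instOneLD (c : M) : One (LocDiv c) :=
  ⟨⟨c, ⟨1, (mul_one c).symm⟩, ⟨1, (one_mul c).symm⟩⟩⟩

theorem LocDiv.one_val (c : M) : (1 : LocDiv c).val = c := rfl

noncomputable instance LocDiv.instMonoidLD (c : M) : Monoid (LocDiv c) where
  mul_assoc x y z := by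
    apply LocDiv.ext'
    obtain ⟨u, hu⟩ := x.right
    obtain ⟨u', hu'⟩ := y.right
    have h1 : (x * y).val = (u * u') * c := by rw [LocDiv.mul_val x y hu, hu', mul_assoc]
    rw [LocDiv.mul_val (x * y) z h1, LocDiv.mul_val x (y * z) hu, LocDiv.mul_val y z hu',
      mul_assoc]
  one_mul x := by
    apply LocDiv.ext'
    rw [LocDiv.mul_val 1 x (u := 1) (by rw [one_mul]; rfl), one_mul]
  mul_one x := by
    apply LocDiv.ext'
    obtain ⟨u, hu⟩ := x.right
    rw [LocDiv.mul_val x 1 hu, LocDiv.one_val, hu]

theorem LocDiv.pow_val {c : M} (x : LocDiv c) {u : M} (hu : x.val = u * c) :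
    ∀ k : ℕ, (x ^ k).val = u ^ k * c
  | 0 => by rw [pow_zero, pow_zero, one_mul, LocDiv.one_val]
  | k + 1 => by rw [pow_succ', LocDiv.mul_val x _ hu, LocDiv.pow_val x hu k, pow_succ', mul_assoc]

/-- Aperiodicity. -/
def Aperiodic (M : Type) [Monoid M] : Prop := ∀ x : M, ∃ n : ℕ, x ^ (n + 1) = x ^ n

theorem LocDiv.aperiodic {c : M} (hM : Aperiodic M) : Aperiodic (LocDiv c) := by
  intro x
  obtain ⟨u, hu⟩ := x.right
  obtain ⟨n, hn⟩ := hM u
  exact ⟨n, LocDiv.ext' (by rw [x.pow_val hu, x.pow_val hu, hn])⟩

theorem Aperiodic.eq_one_of_mul_eq_one (hM : Aperiodic M) {c u : M} (h : c * u = 1) : c = 1 := by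
  obtain ⟨n, hn⟩ := hM c
  have key : ∀ k : ℕ, c ^ k * u ^ k = 1 := by
    intro k
    induction k with
    | zero => simp
    | succ k ih =>
      rw [pow_succ, pow_succ', mul_assoc, ← mul_assoc c u, h, one_mul, ih]
  calc c = c * (c ^ n * u ^ n) := by rw [key, mul_one]
    _ = c ^ (n + 1) * u ^ n := by rw [pow_succ', mul_assoc]
    _ = 1 := by rw [hn, key]

theorem LocDiv.card_lt [Finite M] (hM : Aperiodic M) {c : M} (hc : c ≠ 1) :
    Nat.card (LocDiv c) < Nat.card M := by
  have : Fintype M := Fintype.ofFinite M
  have hinj : Function.Injective (LocDiv.val : LocDiv c → M) := fun _ _ h => LocDiv.ext' h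
  have : Fintype (LocDiv c) := Fintype.ofInjective _ hinj
  rw [Nat.card_eq_fintype_card, Nat.card_eq_fintype_card]
  refine Fintype.card_lt_of_injective_of_notMem _ hinj (b := 1) ?_
  rintro ⟨x, hx⟩
  obtain ⟨v, hv⟩ := x.left
  exact hc (hM.eq_one_of_mul_eq_one (hv.symm.trans hx))

end LocalDivisor

variable {α : Type}

/-- The word `u₁ c u₂ c ⋯ uₖ c`. -/
def glue (c : α) : List (List α) → List α
  | [] => []
  | u :: us => u ++ c :: glue c us

theorem glue_append (c : α) : ∀ us vs : List (List α),
    glue c (us ++ vs) = glue c us ++ glue c vs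
  | [], vs => rfl
  | u :: us, vs => by simp [glue, glue_append c us vs]

theorem append_cons_inj {c : α} : ∀ {u u' r r' : List α}, c ∉ u → c ∉ u' →
    u ++ c :: r = u' ++ c :: r' → u = u' ∧ r = r'
  | [], [], r, r', _, _, h => ⟨rfl, by simpa using h⟩
  | [], b :: u', r, r', _, h2, h => by
      simp only [List.nil_append, List.cons_append, List.cons.injEq] at h
      simp [h.1] at h2
  | a :: u, [], r, r', h1, _, h => by
      simp only [List.nil_append, List.cons_append, List.cons.injEq] at h
      simp [h.1] at h1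
  | a :: u, b :: u', r, r', h1, h2, h => by
      simp only [List.cons_append, List.cons.injEq] at h
      simp only [List.mem_cons, not_or] at h1 h2
      obtain ⟨e1, e2⟩ := append_cons_inj h1.2 h2.2 h.2
      exact ⟨by rw [h.1, e1], e2⟩

theorem glue_inj {c : α} : ∀ {us vs : List (List α)}, (∀ u ∈ us, c ∉ u) → (∀ v ∈ vs, c ∉ v) →
    glue c us = glue c vs → us = vs
  | [], [], _, _, _ => rfl
  | [], v :: vs, _, _, h => by simp [glue] at h
  | u :: us, [], _, _, h => by simp [glue] at h
  | u :: us, v :: vs, h1, h2, h => by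
      simp only [List.mem_cons, forall_eq_or_imp] at h1 h2
      obtain ⟨rfl, e⟩ := append_cons_inj h1.1 h2.1 h
      rw [glue_inj h1.2 h2.2 e]

theorem mem_glue {c : α} : ∀ {us : List (List α)} {a : α}, a ∈ glue c us →
    a = c ∨ ∃ u ∈ us, a ∈ u
  | [], a, h => by simp [glue] at h
  | u :: us, a, h => by
      simp only [glue, List.mem_append, List.mem_cons] at h
      rcases h with h | h | h
      · exact Or.inr ⟨u, by simp, h⟩
      · exact Or.inl h
      · rcases mem_glue h with h' | ⟨v, hv, hav⟩
        · exact Or.inl h'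
        · exact Or.inr ⟨v, by simp [hv], hav⟩

theorem exists_glue [DecidableEq α] (c : α) (Δ : Finset α) : ∀ w : List α, (∀ a ∈ w, a ∈ Δ) →
    ∃ us : List (List α), ∃ v : List α, w = glue c us ++ v ∧
      (∀ u ∈ us, ∀ a ∈ u, a ∈ Δ.erase c) ∧ (∀ a ∈ v, a ∈ Δ.erase c)
  | [], _ => ⟨[], [], by simp [glue]⟩
  | a :: w, h => by
      simp only [List.mem_cons, forall_eq_or_imp] at h
      obtain ⟨us, v, rfl, hus, hv⟩ := exists_glue c Δ w h.2
      by_cases hac : a = c
      · exact ⟨[] :: us, v, by simp [glue, hac], by simpa using hus, hv⟩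
      · have ha : a ∈ Δ.erase c := Finset.mem_erase.2 ⟨hac, h.1⟩
        cases us with
        | nil =>
          refine ⟨[], a :: v, by simp [glue], by simp, ?_⟩
          simp only [List.mem_cons, forall_eq_or_imp]
          exact ⟨ha, hv⟩
        | cons u us =>
          refine ⟨(a :: u) :: us, v, by simp [glue], ?_, hv⟩
          simp only [List.mem_cons, forall_eq_or_imp] at hus ⊢
          exact ⟨⟨ha, hus.1⟩, hus.2⟩

/-- Substitution of the segments of value `t` followed by `c` for the letter `t`. -/
theorem subst_hle {M : Type} [Monoid M] [Finite α] [DecidableEq α] (f : α → M) (c : α)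
    (Δ : Finset α) (hc : c ∈ Δ)
    (hseg : ∀ t : M, HLE (lset fun w => (∀ a ∈ w, a ∈ Δ.erase c) ∧ (w.map f).prod = t) 0) :
    ∀ E : GRE M, E.sh = 0 → HLE (lset fun w => ∃ us : List (List α),
      w = glue c us ∧ (∀ u ∈ us, ∀ a ∈ u, a ∈ Δ.erase c) ∧
        us.map (fun u => (u.map f).prod) ∈ E.lang) 0
  | .zero, _ => HLE.zero.congr fun w => by simp [GRE.lang]
  | .one, _ => HLE.one.congr fun w => by
      simp only [GRE.lang, Language.mem_one, List.map_eq_nil_iff]
      constructor
      · rintro rfl
        exact ⟨[], rfl, by simp, rfl⟩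
      · rintro ⟨us, rfl, -, rfl⟩
        rfl
  | .char t, _ => by
      refine ((hseg t).mul (HLE.char c)).congr fun w => ?_
      simp only [mem_mul_single, GRE.lang, mem_single, mem_lset]
      constructor
      · rintro ⟨u, ⟨hu, ht⟩, rfl⟩
        exact ⟨[u], by simp [glue], by simpa using hu, by simp [ht]⟩
      · rintro ⟨us, rfl, hus, hmap⟩
        match us with
        | [] => simp at hmap
        | [u] => exact ⟨u, ⟨hus u (by simp), by simpa using hmap⟩, by simp [glue]⟩
        | u :: v :: us => simp at hmap
  | .plus P Q, hs => by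
      simp only [GRE.sh, Nat.max_eq_zero_iff] at hs
      refine ((subst_hle f c Δ hc hseg P hs.1).or (subst_hle f c Δ hc hseg Q hs.2)).congr
        fun w => ?_
      simp only [GRE.lang, Language.mem_add, mem_lset]
      constructor
      · rintro (⟨us, e, h1, h2⟩ | ⟨us, e, h1, h2⟩)
        · exact ⟨us, e, h1, Or.inl h2⟩
        · exact ⟨us, e, h1, Or.inr h2⟩
      · rintro ⟨us, e, h1, h2 | h2⟩
        · exact Or.inl ⟨us, e, h1, h2⟩
        · exact Or.inr ⟨us, e, h1, h2⟩
  | .cat P Q, hs => by
      simp only [GRE.sh, Nat.max_eq_zero_iff] at hs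
      refine ((subst_hle f c Δ hc hseg P hs.1).mul (subst_hle f c Δ hc hseg Q hs.2)).congr
        fun w => ?_
      simp only [GRE.lang, Language.mem_mul, mem_lset]
      constructor
      · rintro ⟨x, ⟨us, rfl, h1, h2⟩, y, ⟨vs, rfl, h3, h4⟩, rfl⟩
        refine ⟨us ++ vs, (glue_append c us vs).symm, ?_, ?_⟩
        · intro u hu
          rcases List.mem_append.1 hu with hu | hu
          · exact h1 u hu
          · exact h3 u hu
        · exact ⟨_, h2, _, h4, by simp⟩
      · rintro ⟨us, rfl, h1, x, hx, y, hy, he⟩
        obtain ⟨us₁, us₂, rfl, rfl, rfl⟩ := List.map_eq_append_iff.1 he.symm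
        exact ⟨glue c us₁, ⟨us₁, rfl, fun u hu => h1 u (by simp [hu]), hx⟩,
          glue c us₂, ⟨us₂, rfl, fun u hu => h1 u (by simp [hu]), hy⟩,
          (glue_append c us₁ us₂).symm⟩
  | .neg P, hs => by
      have ih := subst_hle f c Δ hc hseg P hs
      have hD : HLE (lset fun w : List α => (∀ a ∈ w, a ∈ Δ) ∧ (w = [] ∨ ∃ u, w = u ++ [c])) 0 :=
        (HLE.letters _).and ((HLE.one (α := α) (h := 0)).congr (P := fun w => w = [])
          (fun w => by simp) |>.or (((HLE.const (α := α) (h := 0) True).mul (HLE.char c)).congr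
            (P := fun w => ∃ u, w = u ++ [c]) fun w => by simp [mem_mul_single]))
      refine (hD.and ih.not).congr fun w => ?_
      simp only [GRE.lang, mem_compl_iff, mem_lset]
      constructor
      · rintro ⟨⟨hΔ, hlast⟩, hno⟩
        obtain ⟨us, v, rfl, hus, hv⟩ := exists_glue c Δ w hΔ
        have hv0 : v = [] := by
          rcases List.eq_nil_or_concat v with h0 | ⟨v', b, rfl⟩
          · exact h0
          · exfalso
            have hb := (Finset.mem_erase.1 (hv b (by simp))).1
            rcases hlast with h' | ⟨u, hu⟩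
            · simp at h'
            · rw [List.concat_eq_append, ← List.append_assoc] at hu
              exact hb (by simpa using (List.append_inj' hu rfl).2)
        subst hv0
        refine ⟨us, by simp, hus, fun hm => hno ⟨us, by simp, hus, hm⟩⟩
      · rintro ⟨us, rfl, hus, hm⟩
        refine ⟨⟨?_, ?_⟩, ?_⟩
        · intro a ha
          rcases mem_glue ha with rfl | ⟨u, hu, hau⟩
          · exact hc
          · exact (Finset.mem_erase.1 (hus u hu a hau)).2
        · rcases List.eq_nil_or_concat us with rfl | ⟨us', u, rfl⟩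
          · exact Or.inl rfl
          · exact Or.inr ⟨glue c us' ++ u, by simp [glue_append, glue]⟩
        · rintro ⟨vs, e, hvs, hvm⟩
          have hi : ∀ {ws : List (List α)}, (∀ u ∈ ws, ∀ a ∈ u, a ∈ Δ.erase c) →
              ∀ u ∈ ws, c ∉ u := fun h u hu hcu => (Finset.mem_erase.1 (h u hu c hcu)).1 rfl
          exact hm ((glue_inj (hi hus) (hi hvs) e) ▸ hvm)
  | .star P, hs => by simp [GRE.sh] at hs

theorem seg_value {M : Type} [Monoid M] (f : α → M) (c : α) :
    ∀ us : List (List α),
      ((us.map fun u => (⟨f c * (u.map f).prod * f c, ⟨_, mul_assoc _ _ _⟩, ⟨_, rfl⟩⟩ :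
        LocDiv (f c))).prod).val = f c * ((glue c us).map f).prod
  | [] => by simp [glue, LocDiv.one_val]
  | u :: us => by
      rw [List.map_cons, List.prod_cons, LocDiv.mul_val _ _ (u := f c * (u.map f).prod) rfl,
        seg_value f c us]
      simp [glue, mul_assoc]

/-- Languages recognised by finite aperiodic monoids are star-free. -/
theorem starFree_of_aperiodic : ∀ (n : ℕ) (M : Type) [Monoid M] [Finite M], Nat.card M ≤ n →
    Aperiodic M → ∀ (β : Type) [Finite β] (f : β → M) (m : M),
      HLE (lset fun w : List β => (w.map f).prod = m) 0 := by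
  intro n
  induction n with
  | zero =>
    intro M _ _ hn
    have : 0 < Nat.card M := Nat.card_pos
    omega
  | succ n ihn =>
    intro M _ _ hn hM β _ f m
    classical
    suffices H : ∀ (Δ : Finset β) (m : M),
        HLE (lset fun w : List β => (∀ a ∈ w, a ∈ Δ) ∧ (w.map f).prod = m) 0 by
      have : Fintype β := Fintype.ofFinite β
      exact (H Finset.univ m).congr fun w => by simp
    intro Δ
    induction Δ using Finset.strongInduction with
    | _ Δ ihΔ =>
      intro m
      by_cases htriv : ∀ a ∈ Δ, f a = 1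
      · refine ((HLE.letters (h := 0) fun a => a ∈ Δ).and (HLE.const (m = 1))).congr fun w => ?_
        constructor
        · rintro ⟨hw, rfl⟩
          refine ⟨hw, List.prod_eq_one ?_⟩
          simp only [List.mem_map, forall_exists_index, and_imp, forall_apply_eq_imp_iff₂]
          exact fun a ha => htriv a (hw a ha)
        · rintro ⟨hw, rfl⟩
          refine ⟨hw, List.prod_eq_one ?_⟩
          simp only [List.mem_map, forall_exists_index, and_imp, forall_apply_eq_imp_iff₂]
          exact fun a ha => htriv a (hw a ha)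
      · push_neg at htriv
        obtain ⟨c, hcΔ, hc1⟩ := htriv
        have hseg := ihΔ _ (Finset.erase_ssubset hcΔ)
        have hinj : Function.Injective (LocDiv.val : LocDiv (f c) → M) :=
          fun _ _ h => LocDiv.ext' h
        have : Finite (LocDiv (f c)) := Finite.of_injective _ hinj
        have hloc := ihn (LocDiv (f c))
          (by have := LocDiv.card_lt hM hc1; omega) (LocDiv.aperiodic hM) M
          (fun t => (⟨f c * t * f c, ⟨_, mul_assoc _ _ _⟩, ⟨_, rfl⟩⟩ : LocDiv (f c)))
        have hmid : ∀ z : LocDiv (f c), HLE (lset fun w : List β => ∃ us : List (List β),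
            w = glue c us ∧ (∀ u ∈ us, ∀ a ∈ u, a ∈ Δ.erase c) ∧
              f c * ((glue c us).map f).prod = z.val) 0 := by
          intro z
          obtain ⟨E, hE, hsh⟩ := hloc z
          refine (subst_hle f c Δ hcΔ hseg E (Nat.le_zero.1 hsh)).congr fun w => ?_
          simp only [hE, mem_lset, List.map_map]
          constructor
          · rintro ⟨us, e, h1, h2⟩
            exact ⟨us, e, h1, by rw [← seg_value f c us, ← h2]; rfl⟩
          · rintro ⟨us, e, h1, h2⟩
            exact ⟨us, e, h1, LocDiv.ext' (by rw [← h2, ← seg_value f c us]; rfl)⟩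
        have hcs : HLE (lset fun w : List β => w = [c]) 0 :=
          (HLE.char c).congr fun w => mem_single
        have hparts : ∀ i : {i : M × LocDiv (f c) × M // i.1 * i.2.1.val * i.2.2 = m},
            HLE (lset fun w : List β => w ∈
              lset (fun u => (∀ a ∈ u, a ∈ Δ.erase c) ∧ (u.map f).prod = i.1.1) *
              lset (fun u => u = [c]) *
              lset (fun u : List β => ∃ us : List (List β),
                u = glue c us ∧ (∀ x ∈ us, ∀ a ∈ x, a ∈ Δ.erase c) ∧
                  f c * ((glue c us).map f).prod = i.1.2.1.val) *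
              lset (fun u => (∀ a ∈ u, a ∈ Δ.erase c) ∧ (u.map f).prod = i.1.2.2)) 0 :=
          fun i => ((((hseg i.1.1).mul hcs).mul (hmid i.1.2.1)).mul (hseg i.1.2.2)).congr
            fun w => Iff.rfl
        refine ((hseg m).or (HLE.exists_fin hparts)).congr fun w => ?_
        simp only [Language.mem_mul, mem_lset]
        constructor
        · rintro (⟨hw, rfl⟩ | ⟨⟨⟨x, z, y⟩, hxzy⟩, _, ⟨_, ⟨u0, ⟨h0, rfl⟩, _, rfl, rfl⟩, _,
              ⟨us, rfl, hus, hz⟩, rfl⟩, v, ⟨hv, rfl⟩, rfl⟩)
          · exact ⟨fun a ha => (Finset.mem_erase.1 (hw a ha)).2, rfl⟩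
          · refine ⟨?_, ?_⟩
            · intro a ha
              simp only [List.mem_append, List.mem_singleton] at ha
              rcases ha with ((ha | rfl) | ha) | ha
              · exact (Finset.mem_erase.1 (h0 a ha)).2
              · exact hcΔ
              · rcases mem_glue ha with rfl | ⟨u, hu, hau⟩
                · exact hcΔ
                · exact (Finset.mem_erase.1 (hus u hu a hau)).2
              · exact (Finset.mem_erase.1 (hv a ha)).2
            · simp only at hxzy hz
              rw [← hxzy, ← hz]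
              simp [mul_assoc]
        · rintro ⟨hw, rfl⟩
          obtain ⟨us, v, rfl, hus, hv⟩ := exists_glue c Δ w hw
          cases us with
          | nil => exact Or.inl ⟨by simpa [glue] using hv, rfl⟩
          | cons u us =>
            right
            simp only [List.mem_cons, forall_eq_or_imp] at hus
            refine ⟨⟨((u.map f).prod,
                (us.map fun u => (⟨f c * (u.map f).prod * f c, ⟨_, mul_assoc _ _ _⟩, ⟨_, rfl⟩⟩ :
                  LocDiv (f c))).prod, (v.map f).prod), ?_⟩,
              u ++ [c] ++ glue c us, ⟨u ++ [c], ⟨u, ⟨hus.1, rfl⟩, [c], rfl, rfl⟩,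
              glue c us, ⟨us, rfl, hus.2, (seg_value f c us).symm⟩, rfl⟩, v, ⟨hv, rfl⟩,
              by simp [glue]⟩
            simp only [seg_value]
            simp [glue, mul_assoc]

end Vale.Agent.P329
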