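import Vale.Agent.P329.Count

/-!
For every `n`, the full symmetric group on `n + 2` points is the syntactic monoid of a language
of generalized star height at most one over a two-letter alphabet.
-/

namespace Vale.Agent.P329

variable (n : ℕ)

/-- The letter `true` rotates the points, the letter `false` exchanges the first two. -/
def symGen : Bool → Equiv.Perm (Fin (n + 2))
  | true => (finRotate (n + 2))⁻¹
  | false => Equiv.swap 0 1

/-- Follow one point; the events are the arrivals at the point `0`. -/
def symAut : EvAut Bool (Fin (n + 2)) where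
  step q a := (symGen n a)⁻¹ q
  ev q a := decide ((symGen n a)⁻¹ q = 0)
  hub := 0
  ev_step q a h := of_decide_eq_true h

theorem symAut_mono : ∀ (w : List Bool) (q : Fin (n + 2)), (symAut n).cnt q w = 0 →
    q ≤ (symAut n).run q w
  | [], q, _ => le_refl q
  | a :: w, q, h => by
      simp only [EvAut.cnt, Nat.add_eq_zero_iff] at h
      refine le_trans ?_ (symAut_mono w ((symAut n).step q a) h.2)
      have h1 : (symGen n a)⁻¹ q ≠ 0 := by
        simpa [symAut] using h.1
      show q ≤ (symGen n a)⁻¹ q
      cases a
      · simp only [symGen, Equiv.swap_inv] at h1 ⊢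
        by_cases h0 : q = 0
        · subst h0; exact Fin.zero_le _
        · by_cases h2 : q = 1
          · subst h2; simp at h1
          · rw [Equiv.swap_apply_of_ne_of_ne h0 h2]
      · simp only [symGen, inv_inv] at h1 ⊢
        rw [finRotate_succ_apply] at h1 ⊢
        by_cases h0 : q = Fin.last (n + 1)
        · subst h0; simp at h1
        · rw [Fin.le_def, Fin.val_add_one_of_lt (Fin.lt_last_iff_ne_last.2 h0)]
          omega

theorem symAut_counterFree : (symAut n).CounterFree := by
  intro w x k hc hr
  have h : EvAut.rep w (k + 1) = w ++ EvAut.rep w k := rfl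
  rw [h, EvAut.cnt_append, Nat.add_eq_zero_iff] at hc
  rw [h, EvAut.run_append] at hr
  have h1 := symAut_mono n w x hc.1
  have h2 := symAut_mono n _ _ hc.2
  rw [hr] at h2
  exact le_antisymm h2 h1

theorem symAut_run : ∀ (w : List Bool) (q : Fin (n + 2)),
    (symAut n).run q w = ((w.map (symGen n)).prod)⁻¹ q
  | [], q => by simp [EvAut.run]
  | a :: w, q => by
      rw [EvAut.run, symAut_run w]
      simp [symAut, mul_inv_rev]

theorem symGen_surjective : Function.Surjective (FreeMonoid.lift (symGen n)) := by
  rw [← MonoidHom.mrange_eq_top, FreeMonoid.mrange_lift,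
    ← Subgroup.closure_toSubmonoid_of_finite]
  have h : Subgroup.closure ({finRotate (n + 2), Equiv.swap 0 (finRotate (n + 2) 0)} :
      Set (Equiv.Perm (Fin (n + 2)))) = ⊤ :=
    Equiv.Perm.closure_cycle_adjacent_swap isCycle_finRotate support_finRotate 0
  rw [← top_le_iff, ← Subgroup.top_toSubmonoid, Subgroup.toSubmonoid_le, ← h, Subgroup.closure_le]
  rintro x (rfl | rfl)
  · have : (finRotate (n + 2))⁻¹ ∈ Subgroup.closure (Set.range (symGen n)) :=
      Subgroup.subset_closure ⟨true, rfl⟩
    simpa using inv_mem this
  · refine Subgroup.subset_closure ⟨false, ?_⟩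
    simp [symGen, finRotate_succ_apply]

theorem hle_sym_kernel :
    HLE (lset fun w : List Bool => FreeMonoid.lift (symGen n) (FreeMonoid.ofList w) = 1) 1 := by
  refine (HLE.forall_fin fun q => (symAut n).hle_run (symAut_counterFree n) q q).congr fun w => ?_
  simp only [mem_lset, symAut_run, FreeMonoid.lift_apply, FreeMonoid.toList_ofList]
  constructor
  · intro h
    exact inv_eq_one.1 (Equiv.ext h)
  · intro h q
    simp [h]

theorem exists_sym_syntactic :
    ∃ φ : FreeMonoid Bool →* Equiv.Perm (Fin (n + 2)), Function.Surjective φ ∧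
      HLE (lset fun w => φ (FreeMonoid.ofList w) = 1) 1 ∧
      ∀ u v, (∀ x y, φ (x * u * y) = 1 ↔ φ (x * v * y) = 1) ↔ φ u = φ v := by
  refine ⟨_, symGen_surjective n, hle_sym_kernel n, fun u v => ⟨fun h => ?_, fun h x y => ?_⟩⟩
  · obtain ⟨y, hy⟩ := symGen_surjective n (FreeMonoid.lift (symGen n) u)⁻¹
    have h1 := (h 1 y).1 (by simp [map_mul, hy])
    rw [map_mul, map_mul, map_one, one_mul, hy] at h1
    exact (mul_inv_eq_one.1 h1).symm
  · simp [map_mul, h]

end Vale.Agent.P329
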