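import Vale.Agent.P329.Count

/-!
For weights `w : α → ZMod p`, `p` prime, the number of occurrences of a letter at the prefixes of
weight `-r` has all residues of generalized star height at most one.
-/

namespace Vale.Agent.P329

open Classical

variable {α : Type} {p : ℕ} (w : α → ZMod p)

/-- The first letter of the current piece, after reading `x`. -/
noncomputable def fstLetter (q : ZMod p × Option α) (x : α) : Option α :=
  if q.1 = 0 then some x else q.2

/-- One step: the weight so far, and the first letter of the piece being read. -/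
noncomputable def wstep (q : ZMod p × Option α) (x : α) : ZMod p × Option α :=
  if q.1 + w x = 0 then (0, none) else (q.1 + w x, fstLetter q x)

/-- The events are the returns to weight zero, except at the pieces satisfying `P`. -/
noncomputable def waut (P : Option α → α → Prop) : EvAut α (ZMod p × Option α) where
  step := wstep w
  ev q x := decide (q.1 + w x = 0 ∧ ¬ P (fstLetter q x) x)
  hub := (0, none)
  ev_step q x h := by
    rw [decide_eq_true_eq] at h
    simp [wstep, h.1]

variable {w} {P : Option α → α → Prop}

theorem waut_run_fst : ∀ (u : List α) (q : ZMod p × Option α),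
    ((waut w P).run q u).1 = q.1 + (u.map w).sum
  | [], q => by simp [EvAut.run]
  | x :: u, q => by
      simp only [EvAut.run, waut_run_fst u, List.map_cons, List.sum_cons]
      by_cases h : q.1 + w x = 0
      · simp [waut, wstep, h, ← add_assoc]
      · simp [waut, wstep, h, add_assoc]

theorem waut_dich : ∀ (u : List α) (v : ZMod p),
    (∀ f, (waut w P).run (v, f) u = (v + (u.map w).sum, f)) ∨
      ∃ c, ∀ f, (waut w P).run (v, f) u = c
  | [], v => Or.inl fun f => by simp [EvAut.run]
  | x :: u, v => by
      by_cases h : v + w x = 0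
      · exact Or.inr ⟨(waut w P).run (0, none) u, fun f => by simp [EvAut.run, waut, wstep, h]⟩
      · by_cases hv : v = 0
        · exact Or.inr ⟨(waut w P).run (v + w x, some x) u,
            fun f => by
              simp only [EvAut.run]
              congr 1
              simp only [waut, wstep, fstLetter, hv, zero_add, if_true]
              rw [if_neg (by simpa [hv] using h)]⟩
        · have hs : ∀ f, (waut w P).step (v, f) x = (v + w x, f) := fun f => by
            simp [waut, wstep, fstLetter, h, hv]
          rcases waut_dich u (v + w x) with hl | ⟨c, hc⟩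
          · exact Or.inl fun f => by simp [EvAut.run, hs, hl, add_assoc]
          · exact Or.inr ⟨c, fun f => by simp [EvAut.run, hs, hc]⟩

theorem waut_noclose {y : α} (hy : ∀ x, ¬ P (some y) x) : ∀ (u : List α) (v : ZMod p), v ≠ 0 →
    (waut w P).cnt (v, some y) u = 0 → ((waut w P).run (v, some y) u).1 ≠ 0
  | [], v, hv, _ => hv
  | x :: u, v, hv, hc => by
      simp only [EvAut.cnt, Nat.add_eq_zero_iff] at hc
      by_cases h : v + w x = 0
      · simp [waut, fstLetter, hv, h, hy] at hc
      · have hs : (waut w P).step (v, some y) x = (v + w x, some y) := by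
          simp [waut, wstep, fstLetter, h, hv]
        rw [EvAut.run, hs]
        exact waut_noclose hy u _ h (hs ▸ hc.2)

theorem split_first_nonzero : ∀ u : List α, (u.map w).sum ≠ 0 →
    ∃ z y t, u = z ++ y :: t ∧ (z.map w).sum = 0 ∧ w y ≠ 0
  | [], h => by simp at h
  | x :: u, h => by
      by_cases hx : w x = 0
      · simp [hx] at h
        obtain ⟨z, y, t, rfl, hz, hy⟩ := split_first_nonzero u h
        exact ⟨x :: z, y, t, rfl, by simp [hx, hz], hy⟩
      · exact ⟨[], x, u, rfl, by simp, hx⟩

theorem rep_sum (u : List α) : ∀ i : ℕ, ((EvAut.rep u i).map w).sum = (i : ZMod p) * (u.map w).sum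
  | 0 => by simp [EvAut.rep]
  | i + 1 => by simp [EvAut.rep, rep_sum u i]; ring

theorem waut_counterFree [Fact p.Prime]
    (hP : ∀ y, w y ≠ 0 → (∃ x, P (some y) x) → (∃ f, P f y) → False) :
    (waut w P).CounterFree := by
  intro u x k hc hr
  by_cases hS : (u.map w).sum = 0
  · rcases waut_dich (w := w) (P := P) u x.1 with hl | ⟨c, hc'⟩
    · have := hl x.2
      rw [hS, add_zero] at this
      exact this
    · have h1 : c.1 = x.1 := by
        rw [← hc' x.2, waut_run_fst, hS, add_zero]
      have hcc : ∀ m, (waut w P).run c (EvAut.rep u m) = c := by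
        intro m
        induction m with
        | zero => rfl
        | succ m ih =>
          have : (waut w P).run c u = c := by
            have := hc' c.2
            rw [← h1] at this
            exact this
          rw [EvAut.rep, EvAut.run_append, this, ih]
      have hxc : (waut w P).run x u = c := hc' x.2
      rw [EvAut.rep, EvAut.run_append, hxc, hcc] at hr
      rw [hxc, hr]
  · exfalso
    set S := (u.map w).sum
    obtain ⟨z, y, t, hu, hz, hy⟩ := split_first_nonzero u hS
    have hk : ((k + 1 : ℕ) : ZMod p) * S = 0 := by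
      have := waut_run_fst (w := w) (P := P) (EvAut.rep u (k + 1)) x
      rw [hr, rep_sum] at this
      simpa using this
    have hp : p ≤ k + 1 := by
      have : ((k + 1 : ℕ) : ZMod p) = 0 := (mul_eq_zero.1 hk).resolve_right hS
      exact Nat.le_of_dvd (by omega) ((ZMod.natCast_eq_zero_iff _ _).1 this)
    have reach : ∀ v : ZMod p, ∃ i m f g, i + (m + 1) = k + 1 ∧
        (waut w P).run x (EvAut.rep u i) = (v, f) ∧ (waut w P).cnt x (EvAut.rep u i) = 0 ∧
        (waut w P).run (v, f) z = (v, g) ∧
        (waut w P).cnt (v, g) (y :: (t ++ EvAut.rep u m)) = 0 ∧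
        (waut w P).run (v, g) (y :: (t ++ EvAut.rep u m)) = x := by
      intro v
      set i := ((v - x.1) / S).val
      obtain ⟨m, hm⟩ : ∃ m, i + (m + 1) = k + 1 :=
        ⟨k - i, by have := ZMod.val_lt ((v - x.1) / S); omega⟩
      rw [← hm, EvAut.rep_add, EvAut.run_append] at hr
      rw [← hm, EvAut.rep_add, EvAut.cnt_append, Nat.add_eq_zero_iff] at hc
      have hv : ((waut w P).run x (EvAut.rep u i)).1 = v := by
        rw [waut_run_fst, rep_sum]
        simp [i, S] at hS ⊢
        field_simp
        ring
      set q := (waut w P).run x (EvAut.rep u i) with hq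
      have hg : ((waut w P).run q z).1 = v := by rw [waut_run_fst, hz, add_zero, hv]
      have hsplit : EvAut.rep u (m + 1) = z ++ (y :: (t ++ EvAut.rep u m)) := by
        simp [EvAut.rep, hu]
      rw [hsplit, EvAut.run_append] at hr
      rw [hsplit, EvAut.cnt_append, Nat.add_eq_zero_iff] at hc
      have hqe : q = (v, q.2) := Prod.ext hv rfl
      refine ⟨i, m, q.2, ((waut w P).run q z).2, hm, hqe, hc.1, ?_, ?_, ?_⟩
      · rw [← hqe]; exact Prod.ext hg rfl
      · convert hc.2.2 using 2
        exact Prod.ext hg.symm rfl
      · convert hr using 2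
        exact Prod.ext hg.symm rfl
    obtain ⟨i, m, f, g, -, -, -, -, hc1, -⟩ := reach (-w y)
    have hlast : ∃ f, P f y := by
      simp only [EvAut.cnt, Nat.add_eq_zero_iff] at hc1
      by_contra hno
      simp [waut, fun f => not_exists.1 hno f] at hc1
    obtain ⟨i, m, f, g, -, hqi, hci, -, hc2, hr2⟩ := reach 0
    refine hP y hy ?_ hlast
    by_contra hno
    have hfirst : ∀ x, ¬ P (some y) x := not_exists.1 hno
    have hs : (waut w P).step (0, g) y = (w y, some y) := by
      simp [waut, wstep, fstLetter, hy]
    simp only [EvAut.cnt, Nat.add_eq_zero_iff, hs] at hc2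
    rw [EvAut.run, hs] at hr2
    have := waut_noclose hfirst ((t ++ EvAut.rep u m) ++ EvAut.rep u i) (w y) hy
      (by rw [EvAut.cnt_append, hc2.2, hr2, hci])
    rw [EvAut.run_append, hr2, hqi] at this
    exact this rfl

variable (w)

/-- The number of occurrences of `b` at weight zero, starting from weight `r`. -/
noncomputable def occ (b : α) : ZMod p → List α → ℤ
  | _, [] => 0
  | r, x :: l => (if r = 0 ∧ x = b then 1 else 0) + occ b (r + w x) l

/-- The potential of a state for the letter `b`. -/
noncomputable def pot (b : α) (q : ZMod p × Option α) : ℤ :=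
  if q.1 ≠ 0 ∧ q.2 = some b then 1 else 0

theorem step_identity (b : α) (q : ZMod p × Option α) (x : α) :
    ((if q.1 = 0 ∧ x = b then 1 else 0) - (if q.1 + w b = 0 ∧ x = b then 1 else 0) : ℤ) =
      pot b (wstep w q x) - pot b q +
      ((if q.1 + w x = 0 ∧ ¬ (fstLetter q x ≠ some b ∧ x = b) then 1 else 0) -
        (if q.1 + w x = 0 ∧ ¬ (fstLetter q x = some b ∧ x ≠ b) then 1 else 0)) := by
  obtain ⟨v, f⟩ := q
  by_cases hx : x = b
  · subst hx
    by_cases hv : v = 0
    · by_cases h : w x = 0 <;> simp [pot, wstep, fstLetter, hv, h]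
    · by_cases h : v + w x = 0 <;> by_cases hf : f = some x <;>
        simp [pot, wstep, fstLetter, hv, h, hf]
  · by_cases hv : v = 0
    · by_cases h : w x = 0 <;> simp [pot, wstep, fstLetter, hv, h, hx]
    · by_cases h : v + w x = 0 <;> by_cases hf : f = some b <;>
        simp [pot, wstep, fstLetter, hv, h, hx, hf]

theorem occ_identity (b : α) : ∀ (l : List α) (q : ZMod p × Option α),
    occ w b q.1 l - occ w b (q.1 + w b) l =
      pot b ((waut w fun _ _ => False).run q l) - pot b q +
      (((waut w fun f x => f ≠ some b ∧ x = b).cnt q l : ℤ) -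
        ((waut w fun f x => f = some b ∧ x ≠ b).cnt q l : ℤ))
  | [], q => by simp [occ, EvAut.run, EvAut.cnt]
  | x :: l, q => by
      have ih := occ_identity b l (wstep w q x)
      have hs := step_identity w b q x
      have h1 : (wstep w q x).1 = q.1 + w x := by
        unfold wstep; split <;> simp [*]
      rw [h1] at ih
      have h2 : q.1 + w x + w b = q.1 + w b + w x := by ring
      rw [h2] at ih
      simp only [occ, EvAut.run, EvAut.cnt, waut, decide_eq_true_eq, Nat.cast_add,
        Nat.cast_ite, Nat.cast_one, Nat.cast_zero] at *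
      have h3 : (if q.1 + w b = 0 ∧ x = b then (1 : ℤ) else 0) =
          if q.1 + w b = 0 ∧ x = b then 1 else 0 := rfl
      linarith [ih, hs, h3]

theorem occ_eq_of_weight_zero {b : α} (hb : w b = 0) : ∀ (l : List α) (q : ZMod p × Option α),
    occ w b q.1 l = ((waut w fun _ _ => False).cnt q l : ℤ) -
      ((waut w fun _ x => x = b).cnt q l : ℤ)
  | [], q => by simp [occ, EvAut.cnt]
  | x :: l, q => by
      have ih := occ_eq_of_weight_zero hb l (wstep w q x)
      have h1 : (wstep w q x).1 = q.1 + w x := by
        unfold wstep; split <;> simp [*]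
      rw [h1] at ih
      simp only [occ, EvAut.cnt, waut, decide_eq_true_eq, Nat.cast_add, Nat.cast_ite,
        Nat.cast_one, Nat.cast_zero] at *
      rw [ih]
      by_cases hx : x = b
      · subst hx
        by_cases hv : q.1 = 0 <;> simp [hv, hb]
        ring
      · by_cases h : q.1 + w x = 0 <;> simp [hx, h]

theorem sum_occ [NeZero p] (b : α) : ∀ l : List α,
    (∀ r0 : ZMod p, ∑ s : ZMod p, occ w b (r0 + s) l = (l.count b : ℤ))
  | [], r0 => by simp [occ]
  | x :: l, r0 => by
      simp only [occ, Finset.sum_add_distrib]
      have h1 : ∀ s : ZMod p, r0 + s + w x = (r0 + w x) + s := fun s => by ring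
      simp only [h1, sum_occ b l]
      have h2 : ∀ s : ZMod p, r0 + s = 0 ↔ s = -r0 := fun s => by
        constructor <;> intro h <;> linear_combination h
      by_cases hx : x = b <;> simp [hx, h2, add_comm]

variable [Finite α] [Fact p.Prime]

theorem h1_occ (b : α) (r : ZMod p) : H1 (occ w b r) := by
  have hF : ∀ P : Option α → α → Prop,
      (∀ y, w y ≠ 0 → (∃ x, P (some y) x) → (∃ f, P f y) → False) →
      ∀ q, H1 (fun l => ((waut w P).cnt q l : ℤ)) :=
    fun P hP q => (waut w P).h1_cnt (waut_counterFree hP) q
  by_cases hb : w b = 0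
  · exact ((hF (fun _ _ => False) (by simp) (r, none)).sub
      (hF (fun _ x => x = b) (by rintro y hy - ⟨f, rfl⟩; exact hy hb) (r, none))).congr
        fun l => (occ_eq_of_weight_zero w hb l (r, none)).symm
  have hA0 : (waut w fun _ _ => False).CounterFree := waut_counterFree (by simp)
  have hend : ∀ q, H1 (fun l => pot b ((waut w fun _ _ => False).run q l)) := by
    intro q
    exact H1.indicator
      ((HLE.exists_fin fun y : {y : ZMod p × Option α // y.1 ≠ 0 ∧ y.2 = some b} =>
        (waut w fun _ _ => False).hle_run hA0 q y.1).congr fun l => by simp)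
  have hD : ∀ r : ZMod p, H1 (fun l => occ w b r l - occ w b (r + w b) l) := by
    intro r
    exact (((hend (r, none)).sub (H1.const (pot b ((r, none) : ZMod p × Option α)))).add
      ((hF (fun f x => f ≠ some b ∧ x = b)
          (fun y _ ⟨_, h1, _⟩ ⟨_, _, h2⟩ => h1 (by rw [h2])) (r, none)).sub
        (hF (fun f x => f = some b ∧ x ≠ b)
          (fun y _ ⟨_, h1, _⟩ ⟨_, _, h2⟩ => h2 (Option.some.inj h1)) (r, none)))).congr
        fun l => (occ_identity w b l (r, none)).symm
  have hn : ∀ (n : ℕ) (r : ZMod p),
      H1 (fun l => occ w b r l - occ w b (r + (n : ZMod p) * w b) l) := by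
    intro n
    induction n with
    | zero => exact fun r => (H1.const 0).congr fun l => by simp
    | succ n ih =>
      intro r
      exact ((ih r).add (hD (r + (n : ZMod p) * w b))).congr fun l => by
        have : r + (n : ZMod p) * w b + w b = r + ((n + 1 : ℕ) : ZMod p) * w b := by
          push_cast; ring
        rw [this]; ring
  have hs : ∀ s : ZMod p, H1 (fun l => occ w b r l - occ w b (r + s) l) := fun s =>
    (hn (s / w b).val r).congr fun l => by rw [ZMod.natCast_zmod_val, div_mul_cancel₀ _ hb]
  refine H1.div p ?_
  refine ((H1.sum Finset.univ fun s _ => hs s).add (h1_count b)).congr fun l => ?_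
  rw [Finset.sum_sub_distrib, sum_occ w b l r]
  simp

end Vale.Agent.P329
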